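import Mathlib

/-!
# P220: Hamiltonian isotopies and exact Lagrangian tori in `T*(T^m × S^1)`

The torus `T^{m+1} = T^m × S^1` is `(ℝ^m × ℝ) / (ℤ^m × ℤ)`. Objects on `T*T^{m+1}` are written
as `ℤ^m × ℤ`-periodic (or equivariant) objects on `(ℝ^m × ℝ) × (ℝ^m × ℝ)`, with points `(q, p)`.
-/

open scoped ContDiff

namespace Vale.Agent.P220.H64

/-- `ℝ^m × ℝ`, the universal cover of `T^{m+1} = T^m × S^1`; also the space of covectors. -/
abbrev V (m : ℕ) : Type := (Fin m → ℝ) × ℝ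

/-- The universal cover `{(q, p)}` of `T*T^{m+1}`. -/
abbrev Ph (m : ℕ) : Type := V m × V m

/-- The lattice vector of `(k, l) ∈ ℤ^m × ℤ`. -/
def lat {m : ℕ} (k : Fin m → ℤ) (l : ℤ) : V m := (fun j => (k j : ℝ), (l : ℝ))

/-- The value of the covector `p` on the vector `v`. -/
def pair {m : ℕ} (p v : V m) : ℝ := ∑ j, p.1 j * v.1 j + p.2 * v.2

/-- The Hamiltonian vector field of `H` at time `s`: `q' = ∂H/∂p`, `p' = -∂H/∂q`. -/
noncomputable def XH {m : ℕ} (H : ℝ × Ph m → ℝ) (s : ℝ) (x : Ph m) : Ph m :=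
  ((fun j => fderiv ℝ (fun y : Ph m => H (s, y)) x (0, (Pi.single j 1, 0)),
      fderiv ℝ (fun y : Ph m => H (s, y)) x (0, (0, 1))),
    (fun j => - fderiv ℝ (fun y : Ph m => H (s, y)) x ((Pi.single j 1, 0), 0),
      - fderiv ℝ (fun y : Ph m => H (s, y)) x ((0, 1), 0)))

/-- A compactly supported smooth time-dependent Hamiltonian on `T*T^{m+1}`. -/
structure IsHam {m : ℕ} (H : ℝ × Ph m → ℝ) : Prop where
  /-- smooth -/
  smooth : ContDiff ℝ ∞ H
  /-- a function on `T*T^{m+1}` at each time -/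
  periodic : ∀ s q p k l, H (s, (q + lat k l, p)) = H (s, (q, p))
  /-- supported in `|p| ≤ R` at all times -/
  supp : ∃ R : ℝ, ∀ s q p, R ≤ ‖p‖ → H (s, (q, p)) = 0

/-- `φ s`, `0 ≤ s ≤ 1`, is the flow of the Hamiltonian vector field of `H`. -/
def IsFlow {m : ℕ} (H : ℝ × Ph m → ℝ) (φ : ℝ → Ph m → Ph m) : Prop :=
  (∀ x, φ 0 x = x) ∧ ∀ x, ∀ s ∈ Set.Icc (0 : ℝ) 1,
    HasDerivWithinAt (fun r => φ r x) (XH H s (φ s x)) (Set.Icc 0 1) s

/-- `L` is the image of the zero section `{p = 0}` under the time-one map of a compactly supported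
smooth time-dependent Hamiltonian. -/
def HamIsotopicToZero {m : ℕ} (L : Set (Ph m)) : Prop :=
  ∃ (H : ℝ × Ph m → ℝ) (φ : ℝ → Ph m → Ph m), IsHam H ∧ IsFlow H φ ∧
    φ 1 '' {x | x.2 = 0} = L

/-- `ι` is (the lift of) an exact Lagrangian embedding `T^{m+1} → T*T^{m+1}` that induces the
identity on fundamental groups. -/
structure IsExactLagTorus {m : ℕ} (ι : V m → Ph m) : Prop where
  /-- smooth -/
  smooth : ContDiff ℝ ∞ ι
  /-- descends to the torus -/
  equivariant : ∀ x k l, ι (x + lat k l) = ι x + (lat k l, 0)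
  /-- injective -/
  inj : Function.Injective ι
  /-- an immersion -/
  imm : ∀ x, Function.Injective (fderiv ℝ ι x)
  /-- the canonical one-form `p dq` pulls back to the differential of a function on the torus -/
  exact : ∃ f : V m → ℝ, ContDiff ℝ ∞ f ∧ (∀ x k l, f (x + lat k l) = f x) ∧
    ∀ x v, fderiv ℝ f x v = pair (ι x).2 (fderiv ℝ ι x v).1

/-- `ι` is fibred over `T^m`: it covers the identity of `T^m`, and over each `b ∈ T^m` the closed
curve `t ↦ (θ, η)` that it gives in `T*S^1` has no double points. -/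
structure IsFibred {m : ℕ} (ι : V m → Ph m) : Prop where
  /-- covers the identity of `T^m` -/
  base : ∀ x, (ι x).1.1 = x.1
  /-- the curves have no double points -/
  inj : ∀ b t t', (ι (b, t)).1.2 = (ι (b, t')).1.2 → (ι (b, t)).2.2 = (ι (b, t')).2.2 → t = t'

end Vale.Agent.P220.H64
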