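import Vale.Agent.P220.H64.Flow
import Vale.Agent.P255.Ode

/-!
# Global smooth flows of periodic vector fields
-/

open Set Filter Topology
open scoped ContDiff Real NNReal

namespace Vale.Agent.P220.H64

section
variable {E : Type} [NormedAddCommGroup E] [NormedSpace ℝ E]

theorem curve_unique {Y : E → E} {K : ℝ≥0} (hK : LipschitzWith K Y) {f g : ℝ → E}
    (hf : ∀ t, HasDerivAt f (Y (f t)) t) (hg : ∀ t, HasDerivAt g (Y (g t)) t) {t₀ : ℝ}
    (h : f t₀ = g t₀) : f = g :=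
  ODE_solution_unique_univ (v := fun _ => Y) (s := fun _ => univ) (K := K)
    (fun _ => hK.lipschitzOnWith) (fun t => ⟨hf t, mem_univ _⟩) (fun t => ⟨hg t, mem_univ _⟩) h

theorem curve_unique_Ioo {Y : E → E} {K : ℝ≥0} (hK : LipschitzWith K Y) {f g : ℝ → E} {a b : ℝ}
    (hf : ∀ t ∈ Ioo a b, HasDerivAt f (Y (f t)) t) (hg : ∀ t ∈ Ioo a b, HasDerivAt g (Y (g t)) t)
    {t₀ : ℝ} (ht₀ : t₀ ∈ Ioo a b) (h : f t₀ = g t₀) : EqOn f g (Ioo a b) :=
  ODE_solution_unique_of_mem_Ioo (v := fun _ => Y) (s := fun _ => univ) (K := K)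
    (fun _ _ => hK.lipschitzOnWith) ht₀ (fun t ht => ⟨hf t ht, mem_univ _⟩)
    (fun t ht => ⟨hg t ht, mem_univ _⟩) h

theorem exists_global_curve [CompleteSpace E] {Y : E → E} {C K : ℝ≥0} (hC : ∀ x, ‖Y x‖ ≤ C)
    (hK : LipschitzWith K Y) (x₀ : E) :
    ∃ α : ℝ → E, α 0 = x₀ ∧ ∀ t, HasDerivAt α (Y (α t)) t := by
  have key : ∀ n : ℕ, ∃ α : ℝ → E, α 0 = x₀ ∧ ∀ t ∈ Ioo (-(n : ℝ)) n, HasDerivAt α (Y (α t)) t := by
    intro n
    have hPL : IsPicardLindelof (fun _ => Y) (tmin := -(n : ℝ)) (tmax := n)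
        ⟨0, by constructor <;> simp⟩ x₀ (C * n) 0 C K := by
      refine ⟨fun t ht => hK.lipschitzOnWith, fun y _ => continuousOn_const,
        fun t ht y _ => hC y, ?_⟩
      simp
    obtain ⟨α, h1, h2⟩ := hPL.exists_eq_forall_mem_Icc_hasDerivWithinAt₀
    exact ⟨α, h1, fun t ht => (h2 t (Ioo_subset_Icc_self ht)).hasDerivAt (Icc_mem_nhds ht.1 ht.2)⟩
  choose α h0 h1 using key
  have hag : ∀ m n : ℕ, 0 < m → m ≤ n → EqOn (α m) (α n) (Ioo (-(m : ℝ)) m) := by
    intro m n hm hmn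
    have hmn' : (m : ℝ) ≤ n := by exact_mod_cast hmn
    have hm' : (0 : ℝ) < m := by exact_mod_cast hm
    refine curve_unique_Ioo hK (h1 m) (fun t ht => h1 n t ⟨?_, ?_⟩) (t₀ := 0) ⟨?_, ?_⟩
      ((h0 m).trans (h0 n).symm)
    · linarith [ht.1]
    · linarith [ht.2]
    · linarith
    · linarith
  refine ⟨fun t => α (⌈|t|⌉₊ + 1) t, h0 _, fun t => ?_⟩
  set N := ⌈|t|⌉₊ + 2 with hN
  have ht : |t| < (N : ℝ) - 1 := by
    have := Nat.le_ceil |t|
    rw [hN]
    push_cast
    linarith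
  have he : (fun s => α (⌈|s|⌉₊ + 1) s) =ᶠ[𝓝 t] α N := by
    have h2 : ∀ᶠ s : ℝ in 𝓝 t, |s| < (N : ℝ) - 1 :=
      continuous_abs.continuousAt.eventually_lt continuousAt_const ht
    filter_upwards [h2] with s hs
    refine hag _ _ (by omega) ?_ ?_
    · have h3 : ⌈|s|⌉₊ ≤ N - 1 := by
        apply Nat.ceil_le.2
        rw [Nat.cast_sub (by omega)]
        push_cast
        exact hs.le
      omega
    · have h3 := Nat.le_ceil |s|
      rw [mem_Ioo, ← abs_lt]
      push_cast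
      linarith
  have h2 := h1 N t (by rw [mem_Ioo, ← abs_lt]; linarith)
  have h3 : α (⌈|t|⌉₊ + 1) t = α N t := he.self_of_nhds
  show HasDerivAt _ (Y (α (⌈|t|⌉₊ + 1) t)) t
  rw [h3]
  exact h2.congr_of_eventuallyEq he

end

variable {m : ℕ}

/-- a global smooth flow of a periodic vector field -/
structure IsGFlow (Y : V m → V m) (φ : ℝ × V m → V m) : Prop where
  smooth : ContDiff ℝ ∞ φ
  zero : ∀ x, φ (0, x) = x
  deriv : ∀ t x, HasDerivAt (fun s => φ (s, x)) (Y (φ (t, x))) t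
  add : ∀ s t x, φ (s + t, x) = φ (s, φ (t, x))
  per : ∀ t x k l, φ (t, x + lat k l) = φ (t, x) + lat k l
  uniq : ∀ f : ℝ → V m, (∀ t, HasDerivAt f (Y (f t)) t) → ∀ t, f t = φ (t, f 0)

theorem bdd_of_per1 {E : Type*} [NormedAddCommGroup E] {f : V m → E} (hf : Continuous f)
    (h : ∀ x k l, f (x + lat k l) = f x) : ∃ C : ℝ≥0, ∀ x, ‖f x‖ ≤ C := by
  obtain ⟨C, hC⟩ := (isCompact_closedBall (0 : V m) (1 / 2)).exists_bound_of_continuousOn
    hf.continuousOn
  refine ⟨C.toNNReal, fun x => ?_⟩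
  obtain ⟨k, l, hkl⟩ := exists_box (0 : V m) x
  have h1 := hC (x + lat k l) (by rw [Metric.mem_closedBall, dist_eq_norm]; exact hkl)
  rw [h] at h1
  exact h1.trans (Real.le_coe_toNNReal C)

theorem fderiv_per1 {E : Type*} [NormedAddCommGroup E] [NormedSpace ℝ E] {f : V m → E} {c : E}
    {k : Fin m → ℤ} {l : ℤ} (h : ∀ x, f (x + lat k l) = f x + c) (x : V m) :
    fderiv ℝ f (x + lat k l) = fderiv ℝ f x := by
  have h1 : (fun y : V m => f (y + lat k l)) = fun y => f y + c := funext h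
  have h2 := congrArg (fun g => fderiv ℝ g x) h1
  simp only [fderiv_add_const] at h2
  rw [fderiv_comp_add_right] at h2
  exact h2

theorem exists_gflow {Y : V m → V m} (hY : ContDiff ℝ ∞ Y)
    (hper : ∀ x k l, Y (x + lat k l) = Y x) : ∃ φ, IsGFlow Y φ := by
  obtain ⟨C, hC⟩ := bdd_of_per1 hY.continuous hper
  obtain ⟨K, hK'⟩ := bdd_of_per1 (hY.continuous_fderiv (by simp))
    (fun x k l => fderiv_per1 (c := 0) (fun x => by rw [hper, add_zero]) x)
  have hK : LipschitzWith K Y := by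
    refine lipschitzWith_of_nnnorm_fderiv_le (𝕜 := ℝ) (hY.differentiable (by simp)) fun x => ?_
    exact_mod_cast hK' x
  have key := fun x => exists_global_curve hC hK x
  choose α h0 h1 using key
  have hadd : ∀ s t x, α x (s + t) = α (α x t) s := by
    intro s t x
    have h2 : ∀ s, HasDerivAt (fun s => α x (s + t)) (Y (α x (s + t))) s := fun s =>
      (h1 x (s + t)).comp_add_const s t
    have h3 := curve_unique hK h2 (h1 (α x t)) (t₀ := 0) (by rw [zero_add, h0])
    exact congrFun h3 s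
  have hsm0 : ∀ x, ∃ ε > 0, ∃ W ∈ 𝓝 x, ∀ t ∈ Ioo (-ε) ε, ∀ y ∈ W,
      ContDiffAt ℝ ∞ (fun p : ℝ × V m => α p.2 p.1) (t, y) := by
    intro x
    obtain ⟨ε, hε, W, hW, hxW, Φ, hΦ0, hΦ1, hΦ2⟩ :=
      Vale.Agent.P255.exists_flow_smooth Y univ isOpen_univ hY.contDiffOn x (mem_univ x)
    refine ⟨ε, hε, W, hW.mem_nhds hxW, fun t ht y hy => ?_⟩
    have hopen : IsOpen (Ioo (-ε) ε ×ˢ W) := isOpen_Ioo.prod hW
    have he : EqOn (fun p : ℝ × V m => α p.2 p.1) (fun p => Φ p.1 p.2) (Ioo (-ε) ε ×ˢ W) := by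
      rintro ⟨s, z⟩ ⟨hs, hz⟩
      have := curve_unique_Ioo hK (fun t _ => h1 z t) (fun t ht => (hΦ1 z hz t ht).2)
        (t₀ := 0) ⟨by linarith, hε⟩ (by rw [h0, hΦ0 z hz])
      exact this hs
    have hmem : Ioo (-ε) ε ×ˢ W ∈ 𝓝 (t, y) := hopen.mem_nhds ⟨ht, hy⟩
    exact (hΦ2.contDiffAt hmem).congr_of_eventuallyEq (he.eventuallyEq_of_mem hmem)
  -- smoothness at all times
  have hsm : ∀ x t, ContDiffAt ℝ ∞ (fun p : ℝ × V m => α p.2 p.1) (t, x) := by
    intro x T
    -- uniform ε on the compact curve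
    obtain ⟨R, hR⟩ : ∃ R : ℝ, 0 ≤ R ∧ |T| ≤ R := ⟨|T|, abs_nonneg _, le_rfl⟩
    have hcont : Continuous (α x) := continuous_iff_continuousAt.2 fun t => (h1 x t).continuousAt
    have hK2 : IsCompact (α x '' Icc (-R) R) := isCompact_Icc.image hcont
    obtain ⟨ε, hε, hε2⟩ : ∃ ε > 0, ∀ y ∈ α x '' Icc (-R) R, ∀ t ∈ Ioo (-ε) ε,
        ContDiffAt ℝ ∞ (fun p : ℝ × V m => α p.2 p.1) (t, y) := by
      choose e he W hW hs using hsm0
      obtain ⟨s, hs1, hs2⟩ := hK2.elim_nhds_subcover W (fun y _ => hW y)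
      rcases s.eq_empty_or_nonempty with hemp | hne
      · subst hemp
        simp only [Finset.notMem_empty, iUnion_of_empty, iUnion_empty, subset_empty_iff] at hs2
        have : α x 0 ∈ α x '' Icc (-R) R := mem_image_of_mem _ ⟨by linarith, by linarith⟩
        rw [hs2] at this
        exact absurd this (notMem_empty _)
      · refine ⟨s.inf' hne e, (Finset.lt_inf'_iff hne).2 fun i _ => he i, fun y hy t ht => ?_⟩
        obtain ⟨i, hi, hi2⟩ := mem_iUnion₂.1 (hs2 hy)
        have h3 : s.inf' hne e ≤ e i := Finset.inf'_le e hi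
        exact hs i t ⟨by linarith [ht.1], by linarith [ht.2]⟩ y hi2
    -- induction over steps
    obtain ⟨n, hn⟩ := exists_nat_gt (|T| / ε)
    have hn0 : (0 : ℝ) < n := lt_of_le_of_lt (div_nonneg (abs_nonneg _) hε.le) hn
    have hstep : |T / n| < ε := by
      rw [abs_div, abs_of_pos hn0, div_lt_iff₀ hn0]
      rw [div_lt_iff₀ hε] at hn
      linarith [mul_comm ε (n : ℝ)]
    have hind : ∀ j : ℕ, j ≤ n → ContDiffAt ℝ ∞ (fun p : ℝ × V m => α p.2 p.1)
        (j * (T / n), x) := by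
      intro j
      induction j with
      | zero =>
        intro _
        have : ((0 : ℕ) : ℝ) * (T / n) = 0 := by simp
        rw [this]
        exact hε2 x ⟨0, ⟨by linarith, by linarith⟩, h0 x⟩ 0 ⟨by linarith, hε⟩
      | succ j ih =>
        intro hj
        have ih' := ih (by omega)
        have hm : α x (j * (T / n)) ∈ α x '' Icc (-R) R := by
          refine mem_image_of_mem _ (abs_le.1 ?_)
          rw [abs_mul, abs_div, Nat.abs_cast, abs_of_pos hn0]
          have h4 : (j : ℝ) ≤ n := by exact_mod_cast (by omega : j ≤ n)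
          calc (j : ℝ) * (|T| / n) ≤ n * (|T| / n) :=
                mul_le_mul_of_nonneg_right h4 (by positivity)
            _ = |T| := by field_simp
            _ ≤ R := hR.2
        have h5 := hε2 _ hm (T / n) (abs_lt.1 hstep)
        have h6 : (fun p : ℝ × V m => α p.2 p.1) =
            (fun p : ℝ × V m => α p.2 p.1) ∘ fun p : ℝ × V m =>
              (T / n, α p.2 (p.1 - T / n)) := by
          funext p
          show α p.2 p.1 = α (α p.2 (p.1 - T / n)) (T / n)
          rw [← hadd]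
          congr 1
          ring
        rw [h6]
        have h7 : ((j + 1 : ℕ) : ℝ) * (T / n) - T / n = j * (T / n) := by push_cast; ring
        have h8 : ContDiffAt ℝ ∞ (fun p : ℝ × V m => (T / n, α p.2 (p.1 - T / n)))
            (((j + 1 : ℕ) : ℝ) * (T / n), x) := by
          refine contDiffAt_const.prodMk ?_
          have h9 : ContDiffAt ℝ ∞ (fun p : ℝ × V m => ((p.1 - T / n, p.2) : ℝ × V m))
              (((j + 1 : ℕ) : ℝ) * (T / n), x) :=
            (contDiffAt_fst.sub contDiffAt_const).prodMk contDiffAt_snd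
          refine ContDiffAt.comp (g := fun p : ℝ × V m => α p.2 p.1)
            (((j + 1 : ℕ) : ℝ) * (T / n), x) ?_ h9
          show ContDiffAt ℝ ∞ (fun p : ℝ × V m => α p.2 p.1)
            (((j + 1 : ℕ) : ℝ) * (T / n) - T / n, x)
          rw [h7]
          exact ih'
        refine ContDiffAt.comp (g := fun p : ℝ × V m => α p.2 p.1)
          (((j + 1 : ℕ) : ℝ) * (T / n), x) ?_ h8
        show ContDiffAt ℝ ∞ (fun p : ℝ × V m => α p.2 p.1)
          (T / n, α x (((j + 1 : ℕ) : ℝ) * (T / n) - T / n))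
        rw [h7]
        exact h5
    have := hind n le_rfl
    rwa [show (n : ℝ) * (T / n) = T by field_simp] at this
  refine ⟨fun p => α p.2 p.1, contDiff_iff_contDiffAt.2 fun p => hsm p.2 p.1, h0,
    fun t x => h1 x t, fun s t x => hadd s t x, fun t x k l => ?_, fun f hf t => ?_⟩
  · have h2 : ∀ t, HasDerivAt (fun t => α x t + lat k l) (Y (α x t + lat k l)) t := fun t => by
      rw [hper]
      exact (h1 x t).add_const _
    have h3 := curve_unique hK (h1 (x + lat k l)) h2 (t₀ := 0) (by rw [h0, h0])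
    exact congrFun h3 t
  · have h3 := curve_unique hK hf (h1 (f 0)) (t₀ := 0) (by rw [h0])
    exact congrFun h3 t

end Vale.Agent.P220.H64
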