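import Vale.Agent.P220.H64.LocInv2
import Vale.Agent.P220.H64.GFlow

/-!
# The kernel field and the horizontal fields of a periodic submersion
-/

open Set Filter Topology
open scoped ContDiff

namespace Vale.Agent.P220.H64

variable {m : ℕ}

/-- a submersion `T^m × S^1 → T^m` homotopic to the projection -/
structure IsSub (π : V m → Fin m → ℝ) : Prop where
  smooth : ContDiff ℝ ∞ π
  equiv : ∀ x k l, π (x + lat k l) = π x + (lat k l).1
  surj : ∀ x, Function.Surjective (fderiv ℝ π x)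

/-- the standard basis of `V m` -/
noncomputable def bas (m : ℕ) : Module.Basis (Fin m ⊕ Unit) ℝ (V m) :=
  (Pi.basisFun ℝ (Fin m)).prod (Module.Basis.singleton Unit ℝ)

theorem bas_inl (j : Fin m) : bas m (Sum.inl j) = (Pi.single j 1, 0) := by
  simp [bas]

theorem bas_inr (u : Unit) : bas m (Sum.inr u) = (0, 1) := by
  simp [bas]

theorem bas_repr_inl (x : V m) (j : Fin m) : (bas m).repr x (Sum.inl j) = x.1 j := by
  simp [bas]

theorem bas_repr_inr (x : V m) (u : Unit) : (bas m).repr x (Sum.inr u) = x.2 := by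
  simp [bas]

/-- the matrix of the differential, with an arbitrary last row -/
noncomputable def Bm (π : V m → Fin m → ℝ) (ℓ : Fin m ⊕ Unit → ℝ) (x : V m) :
    Matrix (Fin m ⊕ Unit) (Fin m ⊕ Unit) ℝ :=
  fun r c => Sum.elim (fun i => fderiv ℝ π x (bas m c) i) (fun _ => ℓ c) r

theorem Bm_updateRow (π : V m → Fin m → ℝ) (ℓ ℓ' : Fin m ⊕ Unit → ℝ) (x : V m) :
    (Bm π ℓ x).updateRow (Sum.inr ()) ℓ' = Bm π ℓ' x := by
  ext r c
  rcases r with i | u
  · rw [Matrix.updateRow_ne (by simp)]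
    rfl
  · obtain rfl : u = () := rfl
    rw [Matrix.updateRow_self]
    rfl

/-- the kernel field -/
noncomputable def ZZ (π : V m → Fin m → ℝ) (x : V m) : V m :=
  ((fun j => (Bm π 0 x).adjugate (Sum.inl j) (Sum.inr ())),
    (Bm π 0 x).adjugate (Sum.inr ()) (Sum.inr ()))

theorem ZZ_repr (π : V m → Fin m → ℝ) (x : V m) (c : Fin m ⊕ Unit) :
    (bas m).repr (ZZ π x) c = (Bm π 0 x).adjugate c (Sum.inr ()) := by
  rcases c with j | u
  · rw [bas_repr_inl]; rfl
  · obtain rfl : u = () := rfl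
    rw [bas_repr_inr]; rfl

theorem adj_indep (π : V m → Fin m → ℝ) (ℓ : Fin m ⊕ Unit → ℝ) (x : V m) (c : Fin m ⊕ Unit) :
    (Bm π ℓ x).adjugate c (Sum.inr ()) = (Bm π 0 x).adjugate c (Sum.inr ()) := by
  rw [Matrix.adjugate_apply, Matrix.adjugate_apply, Bm_updateRow, Bm_updateRow]

theorem lin_eq_sum {F : Type*} [AddCommGroup F] [Module ℝ F] [TopologicalSpace F]
    (A : V m →L[ℝ] F) (v : V m) : A v = ∑ c, (bas m).repr v c • A (bas m c) := by
  conv_lhs => rw [← (bas m).sum_repr v]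
  rw [map_sum]
  simp only [map_smul]

theorem ZZ_ker (π : V m → Fin m → ℝ) (x : V m) : fderiv ℝ π x (ZZ π x) = 0 := by
  funext i
  rw [lin_eq_sum (fderiv ℝ π x)]
  have h := congrFun (congrFun (Matrix.mul_adjugate (Bm π 0 x)) (Sum.inl i)) (Sum.inr ())
  rw [Matrix.mul_apply] at h
  simp only [Finset.sum_apply, Pi.smul_apply, smul_eq_mul, Pi.zero_apply]
  rw [Matrix.smul_apply, Matrix.one_apply_ne (by simp), smul_zero] at h
  rw [← h]
  refine Finset.sum_congr rfl fun c _ => ?_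
  rw [ZZ_repr, mul_comm]
  rfl

theorem ZZ_func (π : V m → Fin m → ℝ) (x : V m) (ℓ : V m →L[ℝ] ℝ) :
    ℓ (ZZ π x) = (Bm π (fun c => ℓ (bas m c)) x).det := by
  rw [lin_eq_sum ℓ]
  have h := congrFun (congrFun (Matrix.mul_adjugate (Bm π (fun c => ℓ (bas m c)) x))
    (Sum.inr ())) (Sum.inr ())
  rw [Matrix.mul_apply, Matrix.smul_apply, Matrix.one_apply_eq, smul_eq_mul, mul_one] at h
  rw [← h]
  refine Finset.sum_congr rfl fun c _ => ?_
  rw [ZZ_repr, ← adj_indep π (fun c => ℓ (bas m c)), smul_eq_mul, mul_comm]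
  rfl

/-- `(Dπ, ℓ)` -/
noncomputable def Lm (π : V m → Fin m → ℝ) (x : V m) (ℓ : V m →L[ℝ] ℝ) : V m →L[ℝ] V m :=
  (fderiv ℝ π x).prod ℓ

theorem Lm_det (π : V m → Fin m → ℝ) (x : V m) (ℓ : V m →L[ℝ] ℝ) :
    (Lm π x ℓ).det = ℓ (ZZ π x) := by
  rw [ZZ_func, ContinuousLinearMap.det, ← LinearMap.det_toMatrix (bas m)]
  congr 1
  ext r c
  rw [LinearMap.toMatrix_apply]
  rcases r with i | u
  · rw [bas_repr_inl]; rfl
  · rw [bas_repr_inr]; rfl

theorem IsSub.ker_dim {π : V m → Fin m → ℝ} (h : IsSub π) (x : V m) :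
    ∃ z : V m, z ≠ 0 ∧ fderiv ℝ π x z = 0 ∧ ∀ u, fderiv ℝ π x u = 0 → ∃ c : ℝ, u = c • z := by
  have h1 := LinearMap.finrank_range_add_finrank_ker (fderiv ℝ π x : V m →ₗ[ℝ] (Fin m → ℝ))
  have h2 : LinearMap.range (fderiv ℝ π x : V m →ₗ[ℝ] (Fin m → ℝ)) = ⊤ :=
    LinearMap.range_eq_top.2 (h.surj x)
  rw [h2, finrank_top] at h1
  have h3 : Module.finrank ℝ (V m) = m + 1 := by
    rw [Module.finrank_prod]; simp
  rw [h3, Module.finrank_fin_fun] at h1
  have h4 : Module.finrank ℝ (LinearMap.ker (fderiv ℝ π x : V m →ₗ[ℝ] (Fin m → ℝ))) = 1 := by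
    omega
  obtain ⟨v, hv, hv2⟩ := finrank_eq_one_iff'.1 h4
  refine ⟨v, fun h0 => hv (Subtype.ext h0), v.2, fun u hu => ?_⟩
  obtain ⟨c, hc⟩ := hv2 ⟨u, hu⟩
  exact ⟨c, (congrArg Subtype.val hc).symm⟩

theorem IsSub.ZZ_ne {π : V m → Fin m → ℝ} (h : IsSub π) (x : V m) : ZZ π x ≠ 0 := by
  obtain ⟨z, hz, hz1, hz2⟩ := h.ker_dim x
  -- a functional which is one at z
  obtain ⟨ℓ, hℓ⟩ : ∃ ℓ : V m →L[ℝ] ℝ, ℓ z ≠ 0 := by
    by_contra hcon
    push Not at hcon
    apply hz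
    refine (bas m).repr.injective ?_
    ext c
    have := hcon (LinearMap.toContinuousLinearMap ((bas m).coord c))
    rw [map_zero]
    simpa using this
  intro h0
  have h1 : Function.Injective (Lm π x ℓ) := by
    rw [injective_iff_map_eq_zero]
    intro u hu
    have h2 : fderiv ℝ π x u = 0 := congrArg Prod.fst hu
    have h3 : ℓ u = 0 := congrArg Prod.snd hu
    obtain ⟨c, rfl⟩ := hz2 u h2
    rw [map_smul, smul_eq_mul, mul_eq_zero] at h3
    rw [h3.resolve_right hℓ, zero_smul]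
  have h2 := det_ne_zero_of_injective' h1
  rw [Lm_det, h0, map_zero] at h2
  exact h2 rfl

theorem IsSub.ker {π : V m → Fin m → ℝ} (h : IsSub π) {x u : V m} (hu : fderiv ℝ π x u = 0) :
    ∃ c : ℝ, u = c • ZZ π x := by
  obtain ⟨z, hz, hz1, hz2⟩ := h.ker_dim x
  obtain ⟨c, hc⟩ := hz2 _ (ZZ_ker π x)
  obtain ⟨d, hd⟩ := hz2 u hu
  have hc0 : c ≠ 0 := fun h0 => h.ZZ_ne x (by rw [hc, h0, zero_smul])
  refine ⟨d / c, ?_⟩
  rw [hc, smul_smul, div_mul_cancel₀ _ hc0, hd]

theorem IsSub.ZZ_smooth {π : V m → Fin m → ℝ} (h : IsSub π) : ContDiff ℝ ∞ (ZZ π) := by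
  have hent : ∀ (ℓ : Fin m ⊕ Unit → ℝ) r c, ContDiff ℝ ∞ fun x => Bm π ℓ x r c := by
    intro ℓ r c
    rcases r with i | u
    · exact (contDiff_apply ℝ ℝ i).comp ((h.smooth.fderiv_right (by simp)).clm_apply
        contDiff_const)
    · exact contDiff_const
  have hdet : ∀ ℓ : Fin m ⊕ Unit → ℝ, ContDiff ℝ ∞ fun x => (Bm π ℓ x).det := by
    intro ℓ
    simp only [Matrix.det_apply]
    refine ContDiff.sum fun σ _ => ?_
    exact (contDiff_prod fun r _ => hent ℓ _ _).const_smul _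
  refine ContDiff.prodMk (contDiff_pi.2 fun j => ?_) ?_
  · simp only [Matrix.adjugate_apply, Bm_updateRow]
    exact hdet _
  · simp only [Matrix.adjugate_apply, Bm_updateRow]
    exact hdet _

theorem IsSub.fderiv_per {π : V m → Fin m → ℝ} (h : IsSub π) (x : V m) (k : Fin m → ℤ) (l : ℤ) :
    fderiv ℝ π (x + lat k l) = fderiv ℝ π x :=
  fderiv_per1 (fun x => h.equiv x k l) x

theorem IsSub.ZZ_per {π : V m → Fin m → ℝ} (h : IsSub π) (x : V m) (k : Fin m → ℤ) (l : ℤ) :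
    ZZ π (x + lat k l) = ZZ π x := by
  unfold ZZ Bm
  rw [h.fderiv_per]

/-- the differential together with the pairing with the kernel field -/
noncomputable def LL (π : V m → Fin m → ℝ) (x : V m) : V m →L[ℝ] V m :=
  Lm π x (pairL m (ZZ π x))

theorem pair_self {v : V m} (h : pair v v = 0) : v = 0 := by
  unfold pair at h
  have h1 : 0 ≤ ∑ j, v.1 j * v.1 j := Finset.sum_nonneg fun j _ => mul_self_nonneg _
  have h2 : 0 ≤ v.2 * v.2 := mul_self_nonneg _
  have h3 : ∑ j, v.1 j * v.1 j = 0 := by linarith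
  have h4 : v.2 * v.2 = 0 := by linarith
  refine Prod.ext (funext fun j => ?_) (mul_self_eq_zero.1 h4)
  exact mul_self_eq_zero.1
    ((Finset.sum_eq_zero_iff_of_nonneg fun j _ => mul_self_nonneg _).1 h3 j (Finset.mem_univ _))

theorem IsSub.LL_det {π : V m → Fin m → ℝ} (h : IsSub π) (x : V m) : (LL π x).det ≠ 0 := by
  unfold LL
  rw [Lm_det, pairL_apply]
  exact fun h0 => h.ZZ_ne x (pair_self h0)

/-- the horizontal fields -/
noncomputable def XX (π : V m → Fin m → ℝ) (j : Fin m) (x : V m) : V m :=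
  (LL π x).inverse (Pi.single j 1, 0)

theorem IsSub.XX_spec {π : V m → Fin m → ℝ} (h : IsSub π) (j : Fin m) (x : V m) :
    fderiv ℝ π x (XX π j x) = Pi.single j 1 := by
  have h1 : LL π x (XX π j x) = (Pi.single j 1, 0) := by
    unfold XX
    set e := (LL π x).toContinuousLinearEquivOfDetNeZero (h.LL_det x)
    have h2 : (LL π x).inverse = (e.symm : V m →L[ℝ] V m) := by
      have : LL π x = (e : V m →L[ℝ] V m) :=
        (ContinuousLinearMap.coe_toContinuousLinearEquivOfDetNeZero _ _).symm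
      rw [this, ContinuousLinearMap.inverse_equiv]
    rw [h2]
    exact e.apply_symm_apply _
  exact congrArg Prod.fst h1

theorem IsSub.XX_smooth {π : V m → Fin m → ℝ} (h : IsSub π) (j : Fin m) :
    ContDiff ℝ ∞ (XX π j) := by
  have h1 : ContDiff ℝ ∞ (LL π) := by
    have e1 : ContDiff ℝ ∞ (fderiv ℝ π) := h.smooth.fderiv_right (by simp)
    have e2 : ContDiff ℝ ∞ fun x => pairL m (ZZ π x) := (pairL m).contDiff.comp h.ZZ_smooth
    have : LL π = fun x => (ContinuousLinearMap.inl ℝ (Fin m → ℝ) ℝ).comp (fderiv ℝ π x) +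
        (ContinuousLinearMap.inr ℝ (Fin m → ℝ) ℝ).comp (pairL m (ZZ π x)) := by
      funext x
      ext u <;> simp [LL, Lm]
    rw [this]
    exact (contDiff_const.clm_comp e1).add (contDiff_const.clm_comp e2)
  rw [contDiff_iff_contDiffAt]
  intro x
  refine ContDiffAt.clm_apply ?_ contDiffAt_const
  refine ContDiffAt.comp x (g := ContinuousLinearMap.inverse) ?_ h1.contDiffAt
  have h2 : LL π x = (((LL π x).toContinuousLinearEquivOfDetNeZero (h.LL_det x) :
      V m ≃L[ℝ] V m) : V m →L[ℝ] V m) :=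
    (ContinuousLinearMap.coe_toContinuousLinearEquivOfDetNeZero _ _).symm
  rw [h2]
  exact contDiffAt_map_inverse _

theorem IsSub.XX_per {π : V m → Fin m → ℝ} (h : IsSub π) (j : Fin m) (x : V m) (k : Fin m → ℤ)
    (l : ℤ) : XX π j (x + lat k l) = XX π j x := by
  unfold XX LL Lm
  rw [h.fderiv_per, h.ZZ_per]

end Vale.Agent.P220.H64
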