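import Vale.Agent.P220.H64.Fields

/-!
# Lattice automorphisms taking the last basis vector to a given direction
-/

open Set Filter Topology
open scoped ContDiff

namespace Vale.Agent.P220.H64

variable {m : ℕ}

/-- a nonzero integer vector is a multiple of a member of a basis -/
theorem exists_basis {ι : Type} [Fintype ι] [DecidableEq ι] (a : ι → ℤ) (ha : a ≠ 0) (i₁ : ι) :
    ∃ (b : Module.Basis ι ℤ (ι → ℤ)) (d : ℤ), a = d • b i₁ := by
  set N : Submodule ℤ (ι → ℤ) := Submodule.span ℤ {a} with hN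
  obtain ⟨n, S⟩ := N.smithNormalForm (Pi.basisFun ℤ ι)
  have hn : n = 1 := by
    have h1 : Module.finrank ℤ N = n := by
      rw [Module.finrank_eq_card_basis S.bN, Fintype.card_fin]
    have h2 : Module.finrank ℤ N = 1 := by
      rw [← (LinearEquiv.toSpanNonzeroSingleton ℤ (ι → ℤ) a ha).finrank_eq]
      exact Module.finrank_self ℤ
    omega
  subst hn
  have haN : a ∈ N := Submodule.mem_span_singleton_self a
  have h1 : (⟨a, haN⟩ : N) = S.bN.repr ⟨a, haN⟩ 0 • S.bN 0 := by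
    conv_lhs => rw [← S.bN.sum_repr ⟨a, haN⟩]
    simp
  have h2 : a = (S.bN.repr ⟨a, haN⟩ 0 * S.a 0) • S.bM (S.f 0) := by
    have := congrArg Subtype.val h1
    rw [Submodule.coe_smul, S.snf, smul_smul] at this
    exact this
  refine ⟨S.bM.reindex (Equiv.swap (S.f 0) i₁), S.bN.repr ⟨a, haN⟩ 0 * S.a 0, ?_⟩
  rw [Module.Basis.reindex_apply, Equiv.symm_swap, Equiv.swap_apply_right]
  exact h2

theorem lat_repr (k : Fin m → ℤ) (l : ℤ) (c : Fin m ⊕ Unit) :
    (bas m).repr (lat k l) c = ((Sum.elim k (fun _ => l) c : ℤ) : ℝ) := by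
  rcases c with j | u
  · rw [bas_repr_inl]; rfl
  · rw [bas_repr_inr]; rfl

theorem lat_of_repr {x : V m} {a : Fin m ⊕ Unit → ℤ} (h : ∀ c, (bas m).repr x c = (a c : ℝ)) :
    x = lat (fun j => a (Sum.inl j)) (a (Sum.inr ())) := by
  refine Prod.ext (funext fun j => ?_) ?_
  · have := h (Sum.inl j)
    rw [bas_repr_inl] at this
    exact this
  · have := h (Sum.inr ())
    rw [bas_repr_inr] at this
    exact this

theorem toLin_lat (A : Matrix (Fin m ⊕ Unit) (Fin m ⊕ Unit) ℤ) (k : Fin m → ℤ) (l : ℤ) :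
    ∃ k' l', Matrix.toLin (bas m) (bas m) (A.map (Int.cast : ℤ → ℝ)) (lat k l) = lat k' l' := by
  refine ⟨_, _, lat_of_repr (a := A.mulVec (Sum.elim k fun _ => l)) fun c => ?_⟩
  rw [Matrix.repr_toLin]
  simp only [Matrix.mulVec, dotProduct, Matrix.map_apply, lat_repr]
  push_cast
  rfl

theorem exists_lat_equiv (a : Fin m ⊕ Unit → ℤ) (ha : a ≠ 0) : ∃ (M : V m ≃L[ℝ] V m) (d : ℤ),
    (∀ k l, ∃ k' l', M (lat k l) = lat k' l') ∧ (∀ k l, ∃ k' l', M.symm (lat k l) = lat k' l') ∧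
      lat (fun j => a (Sum.inl j)) (a (Sum.inr ())) = (d : ℝ) • M (0, 1) := by
  obtain ⟨b, d, hd⟩ := exists_basis a ha (Sum.inr ())
  set A : Matrix (Fin m ⊕ Unit) (Fin m ⊕ Unit) ℤ := (Pi.basisFun ℤ _).toMatrix b with hA
  set B : Matrix (Fin m ⊕ Unit) (Fin m ⊕ Unit) ℤ := b.toMatrix (Pi.basisFun ℤ _) with hB
  have hAB : A * B = 1 := Module.Basis.toMatrix_mul_toMatrix_flip _ _
  have hBA : B * A = 1 := Module.Basis.toMatrix_mul_toMatrix_flip _ _
  have cast_mul : ∀ C D : Matrix (Fin m ⊕ Unit) (Fin m ⊕ Unit) ℤ, C * D = 1 →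
      (C.map (Int.cast : ℤ → ℝ)) * (D.map (Int.cast : ℤ → ℝ)) = 1 := by
    intro C D h
    have h1 := (Matrix.map_mul (L := C) (M := D) (f := Int.castRingHom ℝ))
    rw [h] at h1
    have h2 : (1 : Matrix (Fin m ⊕ Unit) (Fin m ⊕ Unit) ℤ).map (Int.castRingHom ℝ) = 1 := by
      rw [Matrix.map_one] <;> simp
    rw [h2] at h1
    exact h1.symm
  set f := Matrix.toLin (bas m) (bas m) (A.map (Int.cast : ℤ → ℝ)) with hf
  set g := Matrix.toLin (bas m) (bas m) (B.map (Int.cast : ℤ → ℝ)) with hg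
  have hfg : f ∘ₗ g = LinearMap.id := by
    rw [hf, hg, ← Matrix.toLin_mul, cast_mul A B hAB, Matrix.toLin_one]
  have hgf : g ∘ₗ f = LinearMap.id := by
    rw [hf, hg, ← Matrix.toLin_mul, cast_mul B A hBA, Matrix.toLin_one]
  set e : V m ≃ₗ[ℝ] V m := LinearEquiv.ofLinearMap f g hfg hgf with he
  refine ⟨e.toContinuousLinearEquiv, d, fun k l => toLin_lat A k l, fun k l => toLin_lat B k l, ?_⟩
  show _ = (d : ℝ) • f (0, 1)
  symm
  refine lat_of_repr fun c => ?_
  rw [map_smul, Finsupp.smul_apply, smul_eq_mul, ← bas_inr (), hf, Matrix.toLin_self]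
  rw [map_sum, Finsupp.finsetSum_apply]
  simp only [map_smul, Finsupp.smul_apply, Module.Basis.repr_self, smul_eq_mul, Matrix.map_apply]
  have h1 : ∀ x, (A x (Sum.inr ()) : ℝ) * (Finsupp.single x (1 : ℝ)) c =
      if x = c then (A x (Sum.inr ()) : ℝ) else 0 := by
    intro x
    rw [Finsupp.single_apply]
    split_ifs <;> simp
  simp only [h1]
  rw [Finset.sum_ite_eq' Finset.univ c]
  simp only [Finset.mem_univ, if_true]
  have h2 : a c = d * A c (Sum.inr ()) := by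
    conv_lhs => rw [hd]
    rfl
  rw [h2]
  push_cast
  rfl

/-- approximation of directions by lattice vectors -/
theorem approx_dir {v : V m} (hv : v ≠ 0) {ε : ℝ} (hε : 0 < ε) : ∃ (a : Fin m ⊕ Unit → ℤ) (N : ℝ),
    a ≠ 0 ∧ 0 < N ∧ ‖N⁻¹ • lat (fun j => a (Sum.inl j)) (a (Sum.inr ())) - v‖ < ε := by
  have hv0 : 0 < ‖v‖ := norm_pos_iff.2 hv
  obtain ⟨n, hn⟩ := exists_nat_gt (max (1 / ε) (1 / ‖v‖))
  have hn1 : 1 / ε < n := (le_max_left _ _).trans_lt hn
  have hn2 : 1 / ‖v‖ < n := (le_max_right _ _).trans_lt hn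
  have hn0 : (0 : ℝ) < n := (by positivity : 0 < 1 / ε).trans hn1
  have hd : ∀ y : ℝ, |(n : ℝ)⁻¹ * ((round (n * y) : ℤ) : ℝ) - y| ≤ 1 / (2 * n) := by
    intro y
    have h1 := abs_sub_round (n * y)
    have h2 : (n : ℝ)⁻¹ * ((round (n * y) : ℤ) : ℝ) - y =
        -((n * y - ((round (n * y) : ℤ) : ℝ)) / n) := by
      field_simp
      ring
    rw [h2, abs_neg, abs_div, abs_of_pos hn0, div_le_div_iff₀ hn0 (by positivity)]
    nlinarith
  have h3 : ‖(n : ℝ)⁻¹ • lat (fun j => round (n * v.1 j)) (round (n * v.2)) - v‖ ≤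
      1 / (2 * n) := by
    rw [Prod.norm_def, max_le_iff, pi_norm_le_iff_of_nonneg (by positivity)]
    exact ⟨fun j => hd _, hd _⟩
  refine ⟨Sum.elim (fun j => round (n * v.1 j)) fun _ => round (n * v.2), n, fun h0 => ?_, hn0,
    h3.trans_lt ?_⟩
  · have e1 : (lat (fun j => round (n * v.1 j)) (round (n * v.2)) : V m) = 0 := by
      refine Prod.ext (funext fun j => ?_) ?_
      · have := congrFun h0 (Sum.inl j)
        simp only [Sum.elim_inl, Pi.zero_apply] at this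
        simp [lat, this]
      · have := congrFun h0 (Sum.inr ())
        simp only [Sum.elim_inr, Pi.zero_apply] at this
        simp [lat, this]
    rw [e1, smul_zero, zero_sub, norm_neg] at h3
    rw [div_lt_iff₀ hv0] at hn2
    rw [le_div_iff₀ (by positivity)] at h3
    nlinarith
  · rw [div_lt_iff₀ (by positivity)]
    rw [div_lt_iff₀ hε] at hn1
    nlinarith

end Vale.Agent.P220.H64
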