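import Vale.Agent.P220.H64.Opn
import Vale.Agent.P220.H64.Lat

/-!
# Invariance under lattice automorphisms, and the theorem for arbitrary directions
-/

open Set Filter Topology
open scoped ContDiff

namespace Vale.Agent.P220.H64

variable {m : ℕ}

/-- characterisation of the Hamiltonian vector field -/
theorem XH_of_char {H : ℝ × Ph m → ℝ} {s : ℝ} {z X : Ph m}
    (h : ∀ u, fderiv ℝ (fun y => H (s, y)) z u = pair u.2 X.1 - pair X.2 u.1) : XH H s z = X := by
  unfold XH
  simp only [h, pair_single_left, pair_single_right, pair_one_left, pair_one_right,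
    pair_zero_left, pair_zero_right, sub_zero, zero_sub, neg_neg]

theorem pair_decomp_left (p v : V m) :
    pair p v = ∑ j, p.1 j * pair (Pi.single j 1, 0) v + p.2 * pair (0, 1) v := by
  simp only [pair_single_left, pair_one_left]
  rfl

theorem clm_decomp2 (L : Ph m →L[ℝ] ℝ) (u : Ph m) :
    L u = (∑ j, u.1.1 j * L ((Pi.single j 1, 0), 0) + u.1.2 * L ((0, 1), 0)) +
      (∑ j, u.2.1 j * L (0, (Pi.single j 1, 0)) + u.2.2 * L (0, (0, 1))) := by
  have h1 : u = (∑ j, u.1.1 j • (((Pi.single j 1, 0), 0) : Ph m) + u.1.2 • (((0, 1), 0) : Ph m)) +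
      (∑ j, u.2.1 j • ((0, (Pi.single j 1, 0)) : Ph m) + u.2.2 • ((0, (0, 1)) : Ph m)) := by
    refine Prod.ext (Prod.ext ?_ ?_) (Prod.ext ?_ ?_)
    · funext i
      simp [Prod.fst_sum, Finset.sum_apply, Pi.single_apply]
    · simp [Prod.snd_sum, Prod.fst_sum]
    · funext i
      simp [Prod.snd_sum, Prod.fst_sum, Finset.sum_apply, Pi.single_apply]
    · simp [Prod.snd_sum]
  conv_lhs => rw [h1]
  simp only [map_add, map_sum, map_smul, smul_eq_mul]

theorem XH_char (H : ℝ × Ph m → ℝ) (s : ℝ) (z u : Ph m) :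
    fderiv ℝ (fun y => H (s, y)) z u = pair u.2 (XH H s z).1 - pair (XH H s z).2 u.1 := by
  rw [clm_decomp2 (fderiv ℝ (fun y => H (s, y)) z) u]
  unfold pair XH
  simp only [neg_mul, Finset.sum_neg_distrib]
  have e1 : ∀ g : Fin m → ℝ, ∑ j, g j * u.1.1 j = ∑ j, u.1.1 j * g j := fun g =>
    Finset.sum_congr rfl fun j _ => mul_comm _ _
  rw [e1]
  ring

/-- the transpose with respect to the pairing -/
theorem exists_transpose (M : V m →L[ℝ] V m) : ∃ Mt : V m →L[ℝ] V m,
    ∀ p v, pair (Mt p) v = pair p (M v) := by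
  refine ⟨(ContinuousLinearMap.pi fun j => (pairL m).flip (M (Pi.single j 1, 0))).prod
    ((pairL m).flip (M (0, 1))), fun p v => ?_⟩
  have h1 : M v = ∑ j, v.1 j • M (Pi.single j 1, 0) + v.2 • M (0, 1) := by
    have h2 : v = ∑ j, v.1 j • ((Pi.single j 1, 0) : V m) + v.2 • ((0, 1) : V m) := by
      refine Prod.ext ?_ ?_
      · funext i
        simp [Prod.fst_sum, Finset.sum_apply, Pi.single_apply]
      · simp [Prod.snd_sum]
    conv_lhs => rw [h2]
    simp only [map_add, map_sum, map_smul]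
  conv_rhs => rw [h1, ← pairL_apply]
  simp only [map_add, map_sum, map_smul, smul_eq_mul]
  unfold pair
  simp only [ContinuousLinearMap.prod_apply, ContinuousLinearMap.coe_pi',
    ContinuousLinearMap.flip_apply]
  congr 1
  · exact Finset.sum_congr rfl fun j _ => mul_comm _ _
  · exact mul_comm _ _

theorem pair_ext {a b : V m} (h : ∀ v, pair a v = pair b v) : a = b := by
  refine Prod.ext (funext fun j => ?_) ?_
  · have := h (Pi.single j 1, 0)
    rwa [pair_single_right, pair_single_right] at this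
  · have := h (0, 1)
    rwa [pair_one_right, pair_one_right] at this

/-- Hamiltonian isotopies are transported by lattice automorphisms -/
theorem HamIsotopicToZero.map {L : Set (Ph m)} (h : HamIsotopicToZero L) (M : V m ≃L[ℝ] V m)
    (h2 : ∀ k l, ∃ k' l', M.symm (lat k l) = lat k' l') {Mt Ms : V m →L[ℝ] V m}
    (hMt : ∀ p v, pair (Mt p) v = pair p (M v)) (hMs : ∀ p v, pair (Ms p) v = pair p (M.symm v)) :
    HamIsotopicToZero ((fun z : Ph m => ((M z.1, Ms z.2) : Ph m)) '' L) := by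
  obtain ⟨H, φ, hH, hφ, hL⟩ := h
  have hst : ∀ p, Ms (Mt p) = p := fun p => pair_ext fun v => by
    rw [hMs, hMt, ContinuousLinearEquiv.apply_symm_apply]
  have hts : ∀ p, Mt (Ms p) = p := fun p => pair_ext fun v => by
    rw [hMt, hMs, ContinuousLinearEquiv.symm_apply_apply]
  set T : Ph m →L[ℝ] Ph m := (M : V m →L[ℝ] V m).prodMap Ms with hT
  set S : Ph m →L[ℝ] Ph m := (M.symm : V m →L[ℝ] V m).prodMap Mt with hS
  have hTS : ∀ z, T (S z) = z := fun z => Prod.ext (M.apply_symm_apply _) (hst _)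
  have hST : ∀ z, S (T z) = z := fun z => Prod.ext (M.symm_apply_apply _) (hts _)
  set H' : ℝ × Ph m → ℝ := fun y => H (y.1, S y.2) with hH'
  have hX : ∀ s z, XH H' s z = T (XH H s (S z)) := by
    intro s z
    refine XH_of_char fun u => ?_
    have h3 : fderiv ℝ (fun y => H' (s, y)) z u = fderiv ℝ (fun y => H (s, y)) (S z) (S u) := by
      have h4 : HasFDerivAt (fun y => H (s, y)) (fderiv ℝ (fun y => H (s, y)) (S z)) (S z) := by
        have : Differentiable ℝ fun y => H (s, y) :=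
          (hH.smooth.differentiable (by simp)).comp
            (differentiable_const s |>.prodMk differentiable_id)
        exact (this _).hasFDerivAt
      have h5 : HasFDerivAt (fun y => H' (s, y)) ((fderiv ℝ (fun y => H (s, y)) (S z)).comp S) z :=
        h4.comp z S.hasFDerivAt
      rw [h5.fderiv]
      rfl
    rw [h3, XH_char]
    show pair (Mt u.2) (XH H s (S z)).1 - pair (XH H s (S z)).2 (M.symm u.1) =
      pair u.2 (M (XH H s (S z)).1) - pair (Ms (XH H s (S z)).2) u.1
    rw [hMt, hMs]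
  refine ⟨H', fun s z => T (φ s (S z)), ⟨?_, ?_, ?_⟩, ⟨fun z => ?_, fun z s hs => ?_⟩, ?_⟩
  · exact hH.smooth.comp (contDiff_fst.prodMk (S.contDiff.comp contDiff_snd))
  · intro s q p k l
    obtain ⟨k', l', hkl⟩ := h2 k l
    show H (s, (M.symm (q + lat k l), Mt p)) = H (s, (M.symm q, Mt p))
    rw [map_add, hkl, hH.periodic]
  · obtain ⟨R, hR⟩ := hH.supp
    refine ⟨(‖Ms‖ + 1) * (|R| + 1), fun s q p hp => hR s _ _ ?_⟩
    by_contra hcon
    push Not at hcon
    have h3 : ‖p‖ ≤ ‖Ms‖ * ‖Mt p‖ := by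
      conv_lhs => rw [← hst p]
      exact Ms.le_opNorm _
    have h4 : ‖Mt p‖ < |R| + 1 := hcon.trans_le (by linarith [le_abs_self R])
    have h5 : ‖Ms‖ * ‖Mt p‖ ≤ ‖Ms‖ * (|R| + 1) :=
      mul_le_mul_of_nonneg_left h4.le (norm_nonneg _)
    have h6 : (‖Ms‖ + 1) * (|R| + 1) = ‖Ms‖ * (|R| + 1) + (|R| + 1) := by ring
    have h7 : 0 < |R| + 1 := by positivity
    linarith
  · show T (φ 0 (S z)) = z
    rw [hφ.1, hTS]
  · show HasDerivWithinAt (fun r => T (φ r (S z))) (XH H' s (T (φ s (S z)))) (Icc 0 1) s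
    rw [hX, hST]
    exact T.hasFDerivAt.comp_hasDerivWithinAt s (hφ.2 (S z) s hs)
  · rw [← hL]
    ext z
    constructor
    · rintro ⟨y, hy, rfl⟩
      refine ⟨φ 1 (S y), ⟨S y, ?_, rfl⟩, rfl⟩
      show Mt y.2 = 0
      rw [show y.2 = 0 from hy, map_zero]
    · rintro ⟨w, ⟨y, hy, rfl⟩, rfl⟩
      refine ⟨T y, ?_, ?_⟩
      · show Ms y.2 = 0
        rw [show y.2 = 0 from hy, map_zero]
      · show T (φ 1 (S (T y))) = _
        rw [hST]
        rfl

theorem IsMomEmb.smul {ι : V m → Ph m} {r : ℝ} {v : V m} (hs : ContDiff ℝ ∞ ι)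
    (h : IsMomEmb ι (r • v)) : IsMomEmb ι v := by
  have hp : ∀ a : V m, pair a (r • v) = r * pair a v := fun a => by
    simp only [← pairL_apply, map_smul, smul_eq_mul]
  refine ⟨fun x x' hx => ?_, fun x => ?_⟩
  · apply h.inj
    have h0 : (ι x).1 = (ι x').1 := (Prod.ext_iff.1 hx).1
    have h1 : pair (ι x).2 v = pair (ι x').2 v := (Prod.ext_iff.1 hx).2
    simp only [hp, h0, h1]
  · rw [injective_iff_map_eq_zero]
    intro u hu
    rw [mom_fderiv hs] at hu
    refine h.imm' hs (congrArg Prod.fst hu) ?_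
    have h1 : pair (fderiv ℝ ι x u).2 v = 0 := congrArg Prod.snd hu
    rw [hp, h1, mul_zero]

/-- **Theorem.** Exact Lagrangian tori in `T*T^{m+1}` that stay embedded under `(q, p(v))` for some
nonzero `v` are Hamiltonian isotopic to the zero section. -/
theorem dir_hamIsotopic {ι : V m → Ph m} (h : IsExactLagTorus ι) {v : V m} (hv0 : v ≠ 0)
    (hv : IsMomEmb ι v) : HamIsotopicToZero (range ι) := by
  obtain ⟨ε, hε, hopen⟩ := hv.open h
  obtain ⟨a, N, ha, hN, haN⟩ := approx_dir hv0 hε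
  have hw := hopen _ haN
  obtain ⟨M, d, hM1, hM2, hMd⟩ := exists_lat_equiv a ha
  rw [hMd] at hw
  have hw2 : IsMomEmb ι (M (0, 1)) := IsMomEmb.smul h.smooth (IsMomEmb.smul h.smooth hw)
  obtain ⟨Mt, hMt⟩ := exists_transpose (M : V m →L[ℝ] V m)
  obtain ⟨Ms, hMs⟩ := exists_transpose (M.symm : V m →L[ℝ] V m)
  have hst : ∀ p, Ms (Mt p) = p := fun p => pair_ext fun v => by
    rw [hMs, hMt]
    exact congrArg _ (M.apply_symm_apply _)
  set S : Ph m →L[ℝ] Ph m := (M.symm : V m →L[ℝ] V m).prodMap Mt with hS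
  set ι' : V m → Ph m := fun x => S (ι (M x)) with hι'
  have hs := h.smooth
  have hd : ∀ x, HasFDerivAt ι' (S.comp ((fderiv ℝ ι (M x)).comp (M : V m →L[ℝ] V m))) x :=
    fun x => S.hasFDerivAt.comp x (((hs.differentiable (by simp) (M x)).hasFDerivAt).comp x
      M.hasFDerivAt)
  have hSinj : Function.Injective S := by
    intro z z' hz
    have h1 : M.symm z.1 = M.symm z'.1 := congrArg Prod.fst hz
    have h2 : Mt z.2 = Mt z'.2 := congrArg Prod.snd hz
    refine Prod.ext (M.symm.injective h1) ?_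
    rw [← hst z.2, ← hst z'.2, h2]
  have hex : IsExactLagTorus ι' := by
    obtain ⟨f, hf1, hf2, hf3⟩ := h.exact
    refine ⟨S.contDiff.comp (hs.comp M.contDiff), fun x k l => ?_,
      hSinj.comp (h.inj.comp M.injective), fun x => ?_, fun x => f (M x), hf1.comp M.contDiff,
      fun x k l => ?_, fun x u => ?_⟩
    · obtain ⟨k', l', hkl⟩ := hM1 k l
      simp only [hι']
      rw [map_add, hkl, h.equivariant, map_add, ← hkl]
      congr 1
      refine Prod.ext ?_ ?_
      · exact M.symm_apply_apply _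
      · exact map_zero Mt
    · rw [(hd x).fderiv]
      exact hSinj.comp ((h.imm (M x)).comp M.injective)
    · obtain ⟨k', l', hkl⟩ := hM1 k l
      simp only [map_add, hkl, hf2]
    · have h6 : HasFDerivAt (fun x => f (M x)) ((fderiv ℝ f (M x)).comp (M : V m →L[ℝ] V m)) x :=
        ((hf1.differentiable (by simp) (M x)).hasFDerivAt).comp x M.hasFDerivAt
      rw [h6.fderiv, (hd x).fderiv]
      show fderiv ℝ f (M x) (M u) = pair (Mt (ι (M x)).2) (M.symm (fderiv ℝ ι (M x) (M u)).1)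
      rw [hMt, hf3]
      congr 1
      exact (M.apply_symm_apply _).symm
  have hmom : IsMomEmb ι' (0, 1) := by
    refine ⟨fun x x' hx => ?_, fun x => ?_⟩
    · have h1 : M.symm (ι (M x)).1 = M.symm (ι (M x')).1 := congrArg Prod.fst hx
      have h2 : pair (Mt (ι (M x)).2) (0, 1) = pair (Mt (ι (M x')).2) (0, 1) :=
        congrArg Prod.snd hx
      rw [hMt, hMt] at h2
      exact M.injective (hw2.inj (Prod.ext (M.symm.injective h1) h2))
    · rw [injective_iff_map_eq_zero]
      intro u hu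
      rw [mom_fderiv hex.smooth, (hd x).fderiv] at hu
      have h1 : M.symm (fderiv ℝ ι (M x) (M u)).1 = 0 := congrArg Prod.fst hu
      have h2 : pair (Mt (fderiv ℝ ι (M x) (M u)).2) (0, 1) = 0 := congrArg Prod.snd hu
      rw [hMt] at h2
      have h3 : (fderiv ℝ ι (M x) (M u)).1 = 0 := by
        have := congrArg M h1
        rwa [M.apply_symm_apply, map_zero] at this
      have h4 := hw2.imm' hs h3 h2
      exact (map_eq_zero_iff M M.injective).1 h4
  have hfin := (mom_hamIsotopic hex hmom).map M hM2 hMt hMs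
  have he : (fun z : Ph m => ((M z.1, Ms z.2) : Ph m)) '' range ι' = range ι := by
    have e1 : ∀ x, ((M (ι' x).1, Ms (ι' x).2) : Ph m) = ι (M x) := fun x =>
      Prod.ext (M.apply_symm_apply _) (hst _)
    ext z
    constructor
    · rintro ⟨w, ⟨x, rfl⟩, rfl⟩
      exact ⟨M x, (e1 x).symm⟩
    · rintro ⟨x, rfl⟩
      refine ⟨ι' (M.symm x), ⟨_, rfl⟩, ?_⟩
      show ((M (ι' (M.symm x)).1, Ms (ι' (M.symm x)).2) : Ph m) = ι x
      rw [e1, M.apply_symm_apply]
  rwa [he] at hfin

end Vale.Agent.P220.H64
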