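import Vale.Agent.P220.H64.Orbits

/-!
# Trivialisation of a periodic submersion `T^m × S^1 → T^m`
-/

open Set Filter Topology
open scoped ContDiff

namespace Vale.Agent.P220.H64

variable {m : ℕ}

theorem IsSub.exists_data {π : V m → Fin m → ℝ} (h : IsSub π) :
    ∃ (Z : V m → V m) (φ : ℝ × V m → V m) (T : V m → ℝ), SubData π Z φ ∧
    (∀ x, φ (T x, x) = x + lat 0 1) ∧ (∀ x, 0 < T x) ∧ (∀ x k l, T (x + lat k l) = T x) ∧
      ∃ M : ℝ, ∀ x, T x ≤ M := by
  obtain ⟨φ, hφ⟩ := exists_gflow h.ZZ_smooth h.ZZ_per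
  have hD : SubData π (ZZ π) φ :=
    ⟨h, h.ZZ_smooth, h.ZZ_per, ZZ_ker π, fun x u hu => h.ker hu, h.ZZ_ne, hφ⟩
  obtain ⟨ψ, hψ⟩ := exists_gflow (Y := fun x => - ZZ π x) h.ZZ_smooth.neg
    (fun x k l => by rw [h.ZZ_per])
  have hD' : SubData π (fun x => - ZZ π x) ψ := by
    refine ⟨h, h.ZZ_smooth.neg, fun x k l => by rw [h.ZZ_per], fun x => ?_, fun x u hu => ?_,
      fun x => neg_ne_zero.2 (h.ZZ_ne x), hψ⟩
    · rw [map_neg, ZZ_ker, neg_zero]
    · obtain ⟨c, hc⟩ := h.ker hu
      exact ⟨-c, by rw [hc, smul_neg, neg_smul, neg_neg]⟩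
  have hψφ : ∀ t x, ψ (t, x) = φ (-t, x) := by
    intro t x
    have h1 : ∀ t, HasDerivAt (fun t => φ (-t, x)) (- ZZ π (φ (-t, x))) t := by
      intro t
      have h2 := (hφ.deriv (-t) x).scomp t (hasDerivAt_neg t)
      rw [neg_smul, one_smul] at h2
      exact h2
    have h2 := hψ.uniq _ h1 t
    simp only [neg_zero, hφ.zero] at h2
    exact h2.symm
  -- final step for a positive time function
  have fin : ∀ (Z : V m → V m) (φ : ℝ × V m → V m) (T : V m → ℝ), SubData π Z φ → (∀ x, φ (T x, x) = x + lat 0 1) → (∀ x, 0 < T x) →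
      (∀ x k l, T (x + lat k l) = T x) → (∀ x, ∀ ε > 0, ∀ᶠ y in 𝓝 x, |T y - T x| < ε) →
      ∃ (Z : V m → V m) (φ : ℝ × V m → V m) (T : V m → ℝ), SubData π Z φ ∧
        (∀ x, φ (T x, x) = x + lat 0 1) ∧ (∀ x, 0 < T x) ∧
        (∀ x k l, T (x + lat k l) = T x) ∧ ∃ M : ℝ, ∀ x, T x ≤ M := by
    intro Z φ T h1 h2 h3 h4 h5
    have hc : Continuous T := by
      rw [continuous_iff_continuousAt]
      intro x
      rw [ContinuousAt, Metric.tendsto_nhds]
      intro ε hε
      filter_upwards [h5 x ε hε] with y hy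
      rw [Real.dist_eq]
      exact hy
    obtain ⟨C, hC⟩ := bdd_of_per1 hc h4
    exact ⟨Z, φ, T, h1, h2, h3, h4, C, fun x => (le_abs_self _).trans (hC x)⟩
  obtain ⟨T, hT1, hT2, hT3, hT4⟩ := hD.exists_time
  have hc : Continuous T := by
    rw [continuous_iff_continuousAt]
    intro x
    rw [ContinuousAt, Metric.tendsto_nhds]
    intro ε hε
    filter_upwards [hT4 x ε hε] with y hy
    rw [Real.dist_eq]
    exact hy
  rcases lt_or_gt_of_ne (hT2 0) with h0 | h0
  · have hneg : ∀ x, T x < 0 := by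
      intro x
      by_contra hcon
      obtain ⟨z, hz⟩ := mem_range_of_exists_le_of_exists_ge hc ⟨0, h0.le⟩ ⟨x, not_lt.1 hcon⟩
      exact hT2 z hz
    refine fin (fun x => - ZZ π x) ψ (fun x => - T x) hD' (fun x => ?_) (fun x => ?_)
      (fun x k l => by rw [hT3]) (fun x ε hε => ?_)
    · rw [hψφ, neg_neg, hT1]
    · linarith [hneg x]
    · filter_upwards [hT4 x ε hε] with y hy
      rw [show - T y - - T x = -(T y - T x) by ring, abs_neg]
      exact hy
  · have hpos : ∀ x, 0 < T x := by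
      intro x
      by_contra hcon
      obtain ⟨z, hz⟩ := mem_range_of_exists_le_of_exists_ge hc ⟨x, not_lt.1 hcon⟩ ⟨0, h0.le⟩
      exact hT2 z hz
    exact fin _ φ T hD hT1 hpos hT3 hT4

theorem SubData.iter {π : V m → Fin m → ℝ} {Z : V m → V m} {φ : ℝ × V m → V m}
    (h : SubData π Z φ) {T : V m → ℝ} (hT : ∀ x, φ (T x, x) = x + lat 0 1)
    (hTp : ∀ x k l, T (x + lat k l) = T x) (x : V m) (n : ℕ) :
    φ (n * T x, x) = x + lat 0 (n : ℤ) := by
  induction n with
  | zero =>
    rw [Nat.cast_zero, zero_mul, h.flow.zero, lat_nat]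
    simp
  | succ n ih =>
    have := h.flow.add (T x) (n * T x) x
    push_cast at ih ⊢
    rw [show ((n : ℝ) + 1) * T x = T x + n * T x by ring, this, ih]
    have h2 := hT (x + lat 0 (n : ℤ))
    rw [hTp] at h2
    rw [h2]
    have h3 := lat_iter x n
    push_cast at h3
    rw [h3]

/-- the displacement is positive after a long time -/
theorem SubData.drift {π : V m → Fin m → ℝ} {Z : V m → V m} {φ : ℝ × V m → V m}
    (h : SubData π Z φ) {T : V m → ℝ} (hT : ∀ x, φ (T x, x) = x + lat 0 1)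
    (hTp : ∀ x k l, T (x + lat k l) = T x) (hT0 : ∀ x, 0 < T x) {M : ℝ} (hM : ∀ x, T x ≤ M) :
    ∃ N : ℝ, 0 < N ∧ ∀ x, x.2 < (φ (N, x)).2 := by
  obtain ⟨C, hC0, hC⟩ := h.disp
  have hM0 : 0 < M := (hT0 0).trans_le (hM 0)
  refine ⟨M * (C * M + 2), by positivity, fun x => ?_⟩
  set N := M * (C * M + 2) with hN
  set n := ⌊N / T x⌋₊ with hn
  have hN0 : 0 ≤ N / T x := div_nonneg (by positivity) (hT0 x).le
  have h1 : (n : ℝ) ≤ N / T x := Nat.floor_le hN0
  have h2 : N / T x < n + 1 := Nat.lt_floor_add_one _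
  rw [le_div_iff₀ (hT0 x)] at h1
  rw [div_lt_iff₀ (hT0 x)] at h2
  have h3 := h.flow.add (N - n * T x) (n * T x) x
  rw [sub_add_cancel, h.iter hT hTp, lat_nat] at h3
  have h4 := hC (N - n * T x) (x + (0, (n : ℝ)))
  rw [← h3, abs_of_nonneg (by linarith : (0 : ℝ) ≤ N - n * T x)] at h4
  have h5 := neg_le_of_abs_le h4
  have h6 : C * (N - n * T x) ≤ C * M := by
    apply mul_le_mul_of_nonneg_left _ hC0
    have := hM x
    nlinarith
  have h7 : N / M - 1 < n := by
    have h8 : N / M ≤ N / T x := div_le_div_of_nonneg_left (by positivity) (hT0 x) (hM x)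
    have := Nat.lt_floor_add_one (N / T x)
    rw [← hn] at this
    linarith
  have h8 : N / M = C * M + 2 := by rw [hN]; field_simp
  rw [h8] at h7
  simp only [Prod.snd_add] at h5
  linarith

/-- trivialisation -/
theorem IsSub.exists_triv {π : V m → Fin m → ℝ} (h : IsSub π) : ∃ σ : V m → V m,
    ContDiff ℝ ∞ σ ∧ (∀ x k l, σ (x + lat k l) = σ x + lat k l) ∧ (∀ x, π (σ x) = x.1) ∧
      Function.Bijective σ ∧ ∀ x, Function.Injective (fderiv ℝ σ x) := by
  obtain ⟨Z, φ, T, hD, hT, hT0, hTp, M, hM⟩ := h.exists_data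
  obtain ⟨N, hN0, hN⟩ := hD.drift hT hTp hT0 hM
  have hφs := hD.flow.smooth
  set t : V m → ℝ := fun x => ∫ u in (0 : ℝ)..1, (φ (N * u, x)).2 with ht
  have hts : ContDiff ℝ ∞ t :=
    contDiff_integral_unit (g := fun p : V m × ℝ => (φ (N * p.2, p.1)).2)
      (contDiff_snd.comp (hφs.comp ((contDiff_const.mul contDiff_snd).prodMk contDiff_fst)))
  have hcc : ∀ x, Continuous fun r => (φ (r, x)).2 := fun x =>
    continuous_snd.comp (hφs.continuous.comp (continuous_id.prodMk continuous_const))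
  have hte : ∀ x k l, t (x + lat k l) = t x + l := by
    intro x k l
    simp only [ht, hD.flow.per]
    have : ∀ u : ℝ, (φ (N * u, x) + lat k l).2 = (φ (N * u, x)).2 + l := fun u => rfl
    simp only [this]
    rw [intervalIntegral.integral_add, intervalIntegral.integral_const]
    · simp
    · exact ((hcc x).comp (continuous_const.mul continuous_id)).intervalIntegrable _ _
    · exact intervalIntegrable_const
  have htd : ∀ x s, HasDerivAt (fun s => t (φ (s, x)))
      (((φ (N + s, x)).2 - (φ (s, x)).2) / N) s := by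
    intro x s
    set g : ℝ → ℝ := fun r => (φ (r, x)).2 with hg
    have e1 : ∀ s, t (φ (s, x)) = ((∫ r in (0 : ℝ)..(N + s), g r) - ∫ r in (0 : ℝ)..s, g r) / N := by
      intro s
      have h1 : ∀ u : ℝ, (φ (N * u, φ (s, x))).2 = g (N * u + s) := fun u => by
        rw [← hD.flow.add]
      simp only [ht, h1]
      have h2 := intervalIntegral.smul_integral_comp_mul_add (a := 0) (b := 1) g N s
      rw [smul_eq_mul, mul_zero, zero_add, mul_one] at h2
      rw [intervalIntegral.integral_interval_sub_left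
        ((hcc x).intervalIntegrable _ _) ((hcc x).intervalIntegrable _ _), ← h2]
      field_simp
    have e2 : (fun s => t (φ (s, x))) =
        fun s => ((∫ r in (0 : ℝ)..(N + s), g r) - ∫ r in (0 : ℝ)..s, g r) / N := funext e1
    rw [e2]
    have h3 : ∀ s, HasDerivAt (fun s => ∫ r in (0 : ℝ)..s, g r) (g s) s := fun s =>
      intervalIntegral.integral_hasDerivAt_right ((hcc x).intervalIntegrable _ _)
        ((hcc x).stronglyMeasurableAtFilter _ _) (hcc x).continuousAt
    have h4 : HasDerivAt (fun s => ∫ r in (0 : ℝ)..(N + s), g r) (g (N + s)) s :=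
      (h3 (N + s)).comp_const_add N s
    exact (h4.sub (h3 s)).div_const N
  have hpos : ∀ x s, 0 < ((φ (N + s, x)).2 - (φ (s, x)).2) / N := by
    intro x s
    refine div_pos ?_ hN0
    have := hN (φ (s, x))
    rw [← hD.flow.add] at this
    linarith
  have hmono : ∀ x, StrictMono fun s => t (φ (s, x)) := fun x =>
    strictMono_of_deriv_pos fun s => by rw [(htd x s).deriv]; exact hpos x s
  have htZ : ∀ x, 0 < fderiv ℝ t x (Z x) := by
    intro x
    have h1 := htd x 0
    have h2 : HasDerivAt (fun s => t (φ (s, x))) (fderiv ℝ t x (Z x)) 0 := by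
      have h3 : HasFDerivAt t (fderiv ℝ t x) (φ (0, x)) := by
        rw [hD.flow.zero]
        exact (hts.differentiable (by simp) x).hasFDerivAt
      have h4 := hD.flow.deriv 0 x
      rw [hD.flow.zero] at h4
      exact h3.comp_hasDerivAt 0 h4
    rw [← h1.unique h2]
    exact hpos x 0
  -- the diffeomorphism
  set Ξ : V m → V m := fun x => (π x, t x) with hΞ
  have hΞs : ContDiff ℝ ∞ Ξ := h.smooth.prodMk hts
  have hΞinj : Function.Injective Ξ := by
    intro x y hxy
    have h1 : π x = π y := congrArg Prod.fst hxy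
    have h2 : t x = t y := congrArg Prod.snd hxy
    obtain ⟨s, hs⟩ := hD.orbit h1
    have h3 : (fun s => t (φ (s, y))) s = (fun s => t (φ (s, y))) 0 := by
      simp only [hD.flow.zero, ← hs, h2]
    have h4 := (hmono y).injective h3
    rw [hs, h4, hD.flow.zero]
  have hΞsurj : Function.Surjective Ξ := by
    rintro ⟨b, r⟩
    obtain ⟨x, hx⟩ := (h.fibre b).2
    have hcont : Continuous fun s => t (φ (s, x)) :=
      hts.continuous.comp (hφs.continuous.comp (continuous_id.prodMk continuous_const))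
    have hrt : ∀ n : ℤ, ∃ s, t (φ (s, x)) = t x + n := by
      intro n
      obtain ⟨s, hs⟩ := hD.orbit (x := x) (y := x + lat 0 n) (by
        rw [h.equiv, lat_fst_zero, add_zero])
      exact ⟨s, by rw [← hs, hte]⟩
    obtain ⟨s1, hs1⟩ := hrt (⌊r - t x⌋)
    obtain ⟨s2, hs2⟩ := hrt (⌊r - t x⌋ + 1)
    obtain ⟨s, hs⟩ := mem_range_of_exists_le_of_exists_ge hcont (c := r)
      ⟨s1, by
        show t (φ (s1, x)) ≤ r
        rw [hs1]; linarith [Int.floor_le (r - t x)]⟩
      ⟨s2, by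
        show r ≤ t (φ (s2, x))
        rw [hs2]; push_cast; linarith [Int.lt_floor_add_one (r - t x)]⟩
    exact ⟨φ (s, x), Prod.ext ((hD.pi_flow s x).trans hx) hs⟩
  have hΞd : ∀ x u, fderiv ℝ Ξ x u = (fderiv ℝ π x u, fderiv ℝ t x u) := by
    intro x u
    have h1 : HasFDerivAt Ξ ((fderiv ℝ π x).prod (fderiv ℝ t x)) x :=
      ((h.smooth.differentiable (by simp) x).hasFDerivAt).prodMk
        ((hts.differentiable (by simp) x).hasFDerivAt)
    rw [h1.fderiv]
    rfl
  have hΞimm : ∀ x, Function.Injective (fderiv ℝ Ξ x) := by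
    intro x
    rw [injective_iff_map_eq_zero]
    intro u hu
    rw [hΞd] at hu
    have h1 : fderiv ℝ π x u = 0 := congrArg Prod.fst hu
    have h2 : fderiv ℝ t x u = 0 := congrArg Prod.snd hu
    obtain ⟨c, rfl⟩ := hD.zspan x u h1
    rw [map_smul, smul_eq_mul, mul_eq_zero] at h2
    rw [h2.resolve_right (htZ x).ne', zero_smul]
  -- the inverse
  have hA : IsEmbFam (fun p : ℝ × V m => ((Ξ p.2, 0) : V m × (Fin 0 → ℝ))) := by
    refine ⟨(hΞs.comp contDiff_snd).prodMk contDiff_const, fun s x k l => ?_,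
      fun s x x' hx => hΞinj (congrArg Prod.fst hx), fun s x => ?_⟩
    · refine Prod.ext (Prod.ext ?_ ?_) (Subsingleton.elim _ _)
      · exact h.equiv x k l
      · exact hte x k l
    · rw [injective_iff_map_eq_zero]
      intro u hu
      have h1 : HasFDerivAt (fun x => ((Ξ x, 0) : V m × (Fin 0 → ℝ)))
          ((fderiv ℝ Ξ x).prod 0) x :=
        ((hΞs.differentiable (by simp) x).hasFDerivAt).prodMk (hasFDerivAt_const _ _)
      have h2 : fderiv ℝ (fun x => ((Ξ x, 0) : V m × (Fin 0 → ℝ))) x u = 0 := hu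
      rw [h1.fderiv] at h2
      have h3 : fderiv ℝ Ξ x u = 0 := congrArg Prod.fst h2
      exact hΞimm x (h3.trans (map_zero _).symm)
  obtain ⟨τ, hτs, hτ1, hτ2⟩ := hA.exists_tau
  have hτΞ : ∀ x, τ (0, (Ξ x, 0)) = x := fun x => hτ1 0 x
  have hΞτ : ∀ y, Ξ (τ (0, (y, 0))) = y := by
    intro y
    obtain ⟨x, rfl⟩ := hΞsurj y
    rw [hτΞ]
  have hσs : ContDiff ℝ ∞ fun y : V m => τ (0, (y, 0)) :=
    hτs.comp (contDiff_const.prodMk (contDiff_id.prodMk contDiff_const))
  refine ⟨fun y => τ (0, (y, 0)), hσs, fun x k l => hτ2 0 x 0 k l, fun x => ?_, ⟨?_, ?_⟩,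
    fun y => ?_⟩
  · exact congrArg Prod.fst (hΞτ x)
  · intro x y hxy
    have : Ξ (τ (0, (x, 0))) = Ξ (τ (0, (y, 0))) := congrArg Ξ hxy
    rwa [hΞτ, hΞτ] at this
  · intro x
    exact ⟨Ξ x, hτΞ x⟩
  · have h1 : HasFDerivAt (fun y => Ξ (τ (0, (y, 0))))
        ((fderiv ℝ Ξ (τ (0, (y, 0)))).comp (fderiv ℝ (fun y : V m => τ (0, (y, 0))) y)) y :=
      HasFDerivAt.comp (g := Ξ) (f := fun y : V m => τ (0, (y, 0))) y
        ((hΞs.differentiable (by simp) _).hasFDerivAt)
        ((hσs.differentiable (by simp) y).hasFDerivAt)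
    have h2 : (fun y => Ξ (τ (0, (y, 0)))) = id := funext hΞτ
    rw [h2] at h1
    have h3 := h1.unique (hasFDerivAt_id y)
    intro u v huv
    have h4 := congrArg (fun L : V m →L[ℝ] V m => L u) h3
    have h5 := congrArg (fun L : V m →L[ℝ] V m => L v) h3
    simp only [ContinuousLinearMap.comp_apply, ContinuousLinearMap.id_apply] at h4 h5
    rw [← h4, ← h5, huv]

end Vale.Agent.P220.H64
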