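import Vale.Agent.P220.H64.Mom
import Vale.Agent.P220.H64.Main
import Vale.Agent.P220.H64.Triv

/-!
# Tori embedded by the base coordinates and the last momentum
-/

open Set Filter Topology
open scoped ContDiff

namespace Vale.Agent.P220.H64

variable {m : ℕ}

theorem mom_fderiv {ι : V m → Ph m} (hs : ContDiff ℝ ∞ ι) (v x u : V m) :
    fderiv ℝ (fun x => ((ι x).1, pair (ι x).2 v)) x u =
      ((fderiv ℝ ι x u).1, pair (fderiv ℝ ι x u).2 v) := by
  have h1 := (hs.differentiable (by simp) x).hasFDerivAt
  have h2 : HasFDerivAt (fun x => (ι x).1)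
      ((ContinuousLinearMap.fst ℝ (V m) (V m)).comp (fderiv ℝ ι x)) x :=
    (ContinuousLinearMap.fst ℝ (V m) (V m)).hasFDerivAt.comp x h1
  have h3 : HasFDerivAt (fun x => (ι x).2)
      ((ContinuousLinearMap.snd ℝ (V m) (V m)).comp (fderiv ℝ ι x)) x :=
    (ContinuousLinearMap.snd ℝ (V m) (V m)).hasFDerivAt.comp x h1
  have h4 := h2.prodMk (hasFDerivAt_pair h3 (hasFDerivAt_const v x))
  have h5 : fderiv ℝ (fun x => ((ι x).1, pair (ι x).2 v)) x = _ := h4.fderiv
  rw [h5]
  refine Prod.ext rfl ?_
  simp only [ContinuousLinearMap.prod_apply, add_apply, ContinuousLinearMap.comp_apply,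
    ContinuousLinearMap.flip_apply, ContinuousLinearMap.coe_snd', pairL_apply, zero_apply,
    map_zero, add_zero]

theorem IsMomEmb.imm' {ι : V m → Ph m} (hs : ContDiff ℝ ∞ ι) {v : V m} (h : IsMomEmb ι v)
    {x u : V m} (h1 : (fderiv ℝ ι x u).1 = 0) (h2 : pair (fderiv ℝ ι x u).2 v = 0) : u = 0 := by
  apply h.imm x
  rw [mom_fderiv hs, mom_fderiv hs, h1, h2, map_zero]
  simp [pair_zero_left]

/-- the projection to `T^m` is a submersion -/
theorem IsMomEmb.isSub {ι : V m → Ph m} (h : IsExactLagTorus ι) (hv : IsMomEmb ι (0, 1)) :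
    IsSub fun x => (ι x).1.1 := by
  have hs := h.smooth
  have hd : ∀ x u, fderiv ℝ (fun x => (ι x).1.1) x u = (fderiv ℝ ι x u).1.1 := by
    intro x u
    have e1 : HasFDerivAt (fun x => (ι x).1.1) (((ContinuousLinearMap.fst ℝ (Fin m → ℝ) ℝ).comp
        (ContinuousLinearMap.fst ℝ (V m) (V m))).comp (fderiv ℝ ι x)) x :=
      ((ContinuousLinearMap.fst ℝ (Fin m → ℝ) ℝ).comp
        (ContinuousLinearMap.fst ℝ (V m) (V m))).hasFDerivAt.comp x
        (hs.differentiable (by simp) x).hasFDerivAt
    rw [e1.fderiv]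
    rfl
  refine ⟨contDiff_fst.comp (contDiff_fst.comp hs), fun x k l => ?_, fun x => ?_⟩
  · rw [h.equivariant]
    rfl
  · set A : V m →ₗ[ℝ] (Fin m → ℝ) :=
      ((fderiv ℝ (fun x => (ι x).1.1) x : V m →L[ℝ] (Fin m → ℝ)) : V m →ₗ[ℝ] (Fin m → ℝ)) with hA
    have hker : Module.finrank ℝ (LinearMap.ker A) ≤ 1 := by
      by_cases htriv : ∀ u ∈ LinearMap.ker A, u = 0
      · have : LinearMap.ker A = ⊥ := (Submodule.eq_bot_iff _).2 htriv
        rw [this, finrank_bot]
        exact zero_le_one
      · push Not at htriv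
        obtain ⟨z, hz, hz0⟩ := htriv
        have hzk : (fderiv ℝ ι x z).1.1 = 0 := by rw [← hd]; exact hz
        refine finrank_le_one ⟨z, hz⟩ ?_
        rintro ⟨w, hw⟩
        have hwk : (fderiv ℝ ι x w).1.1 = 0 := by rw [← hd]; exact hw
        set a := (fderiv ℝ ι x z).1.2 with ha
        set b := (fderiv ℝ ι x z).2.2 with hb
        set a' := (fderiv ℝ ι x w).1.2 with ha'
        set b' := (fderiv ℝ ι x w).2.2 with hb'
        have hcross : b' * a = b * a' := by
          have h1 := h.lagrangian x w z
          simp only [pair, hzk, hwk, Pi.zero_apply, mul_zero, Finset.sum_const_zero,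
            zero_add] at h1
          exact h1
        have hne : a * a + b * b ≠ 0 := by
          intro h0
          have h1 : a = 0 := by nlinarith [mul_self_nonneg a, mul_self_nonneg b]
          have h2 : b = 0 := by nlinarith [mul_self_nonneg a, mul_self_nonneg b]
          exact hz0 (hv.imm' hs (Prod.ext hzk h1) (by rw [pair_one_right]; exact h2))
        set c := (a * a' + b * b') / (a * a + b * b) with hc
        refine ⟨c, Subtype.ext ?_⟩
        have e1 : a' = c * a := by
          rw [hc, div_mul_eq_mul_div, eq_div_iff hne]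
          linear_combination (-b) * hcross
        have e2 : b' = c * b := by
          rw [hc, div_mul_eq_mul_div, eq_div_iff hne]
          linear_combination a * hcross
        have h3 : w - c • z = 0 := by
          refine hv.imm' (x := x) hs (Prod.ext ?_ ?_) ?_
          · rw [map_sub, map_smul]
            show (fderiv ℝ ι x w).1.1 - c • (fderiv ℝ ι x z).1.1 = 0
            rw [hwk, hzk, smul_zero, sub_zero]
          · rw [map_sub, map_smul]
            show a' - c * a = 0
            rw [e1, sub_self]
          · rw [map_sub, map_smul, pair_one_right]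
            show b' - c * b = 0
            rw [e2, sub_self]
        exact (sub_eq_zero.1 h3).symm
    have h1 := LinearMap.finrank_range_add_finrank_ker A
    have h3 : Module.finrank ℝ (V m) = m + 1 := by
      rw [Module.finrank_prod]; simp
    have h4 : LinearMap.range A = ⊤ := by
      apply Submodule.eq_top_of_finrank_eq
      have h5 := Submodule.finrank_le (LinearMap.range A)
      rw [Module.finrank_fin_fun] at h5 ⊢
      omega
    exact LinearMap.range_eq_top.1 h4

/-- exact tori embedded by `(q, p_n)` are Hamiltonian isotopic to the zero section -/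
theorem mom_hamIsotopic {ι : V m → Ph m} (h : IsExactLagTorus ι) (hv : IsMomEmb ι (0, 1)) :
    HamIsotopicToZero (range ι) := by
  obtain ⟨σ, h1, h2, h3, h4, h5⟩ := (hv.isSub h).exists_triv
  have hs := h.smooth
  obtain ⟨f, hf1, hf2, hf3⟩ := h.exact
  have hd : ∀ x, HasFDerivAt (fun x => ι (σ x)) ((fderiv ℝ ι (σ x)).comp (fderiv ℝ σ x)) x :=
    fun x => ((hs.differentiable (by simp) (σ x)).hasFDerivAt).comp x
      (h1.differentiable (by simp) x).hasFDerivAt
  have hex : IsExactLagTorus fun x => ι (σ x) := by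
    refine ⟨hs.comp h1, fun x k l => by rw [h2, h.equivariant], h.inj.comp h4.1, fun x => ?_,
      fun x => f (σ x), hf1.comp h1, fun x k l => by simp only [h2, hf2], fun x v => ?_⟩
    · rw [(hd x).fderiv]
      exact (h.imm (σ x)).comp (h5 x)
    · have h6 : HasFDerivAt (fun x => f (σ x)) ((fderiv ℝ f (σ x)).comp (fderiv ℝ σ x)) x :=
        ((hf1.differentiable (by simp) (σ x)).hasFDerivAt).comp x
          (h1.differentiable (by simp) x).hasFDerivAt
      rw [h6.fderiv, (hd x).fderiv]
      exact hf3 (σ x) _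
  have hfib : IsFibred fun x => ι (σ x) := by
    refine ⟨h3, fun b t t' ht ht' => ?_⟩
    have h6 : σ (b, t) = σ (b, t') := by
      apply hv.inj
      refine Prod.ext (Prod.ext ?_ ht) ?_
      · show (ι (σ (b, t))).1.1 = (ι (σ (b, t'))).1.1
        rw [h3, h3]
      · simp only [pair_one_right]
        exact ht'
    exact congrArg Prod.snd (h4.1 h6)
  have h7 := fibred_hamIsotopic hex hfib
  have h8 : range (fun x => ι (σ x)) = range ι := h4.2.range_comp ι
  rwa [h8] at h7

end Vale.Agent.P220.H64
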