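import Vale.Agent.P220.H64.One

/-!
# Embeddedness by one momentum is an open condition on the direction
-/

open Set Filter Topology
open scoped ContDiff NNReal

namespace Vale.Agent.P220.H64

variable {m : ℕ}

/-- lower Lipschitz bound -/
theorem IsMomEmb.lower {ι : V m → Ph m} (h : IsExactLagTorus ι) {v : V m} (hv : IsMomEmb ι v) :
    ∃ c : ℝ, 0 < c ∧ ∀ x x', c * ‖x - x'‖ ≤
      ‖((ι x).1, pair (ι x).2 v) - ((ι x').1, pair (ι x').2 v)‖ := by
  have hs := h.smooth
  have hps : ContDiff ℝ ∞ fun x => pair (ι x).2 v :=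
    contDiff_pair (contDiff_snd.comp hs) contDiff_const
  have hA : IsEmbFam (fun y : ℝ × V m => (((ι y.2).1, pair (ι y.2).2 v) : V m × ℝ)) := by
    refine ⟨(contDiff_fst.comp (hs.comp contDiff_snd)).prodMk (hps.comp contDiff_snd),
      fun s x k l => ?_, fun s x x' hx => hv.inj hx, fun s x => hv.imm x⟩
    refine Prod.ext ?_ ?_
    · show (ι (x + lat k l)).1 = _
      rw [h.equivariant]
      rfl
    · show pair (ι (x + lat k l)).2 v = pair (ι x).2 v + 0
      rw [h.equivariant, Prod.snd_add, add_zero, add_zero]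
  obtain ⟨τ, hτ, hτ1, hτ2⟩ := hA.exists_tau
  -- bound on the momenta
  obtain ⟨R, hR⟩ : ∃ R : ℝ≥0, ∀ x, ‖pair (ι x).2 v‖ ≤ R :=
    bdd_of_per1 hps.continuous fun x k l => by
      rw [h.equivariant, Prod.snd_add, add_zero]
  -- the slice
  set T : V m × ℝ → V m := fun z => τ (0, z) with hT
  have hTs : ContDiff ℝ ∞ T := hτ.comp (contDiff_const.prodMk contDiff_id)
  have hTp : ∀ q p k l, fderiv ℝ T (q + lat k l, p) = fderiv ℝ T (q, p) := by
    intro q p k l
    have h1 : (fun z : V m × ℝ => T (z + (lat k l, 0))) = fun z => T z + lat k l := by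
      funext z
      have := hτ2 0 z.1 z.2 k l
      rw [show z + (lat k l, 0) = (z.1 + lat k l, z.2) from Prod.ext (by simp) (by simp)]
      exact this
    have h2 := congrArg (fun g => fderiv ℝ g (q, p)) h1
    simp only [fderiv_add_const] at h2
    rw [fderiv_comp_add_right] at h2
    rw [← h2]
    congr 1
    exact Prod.ext (by simp) (by simp)
  obtain ⟨K, hK⟩ := ((isCompact_closedBall (0 : V m) (1 / 2)).prod
    (isCompact_closedBall (0 : ℝ) R)).exists_bound_of_continuousOn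
    (hTs.continuous_fderiv (by simp)).continuousOn
  have hK' : ∀ q : V m, ∀ p : ℝ, |p| ≤ R → ‖fderiv ℝ T (q, p)‖ ≤ K := by
    intro q p hp
    obtain ⟨k, l, hkl⟩ := exists_box (0 : V m) q
    rw [sub_zero] at hkl
    have h1 := hK (q + lat k l, p) ⟨by
      rw [mem_closedBall_zero_iff]; exact hkl, by
      rw [mem_closedBall_zero_iff]; exact hp⟩
    rwa [hTp] at h1
  have hK0 : 0 ≤ K := (norm_nonneg _).trans (hK' 0 0 (by simp))
  have hconv : Convex ℝ {z : V m × ℝ | |z.2| ≤ R} := by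
    have : {z : V m × ℝ | |z.2| ≤ R} = univ ×ˢ Icc (-(R : ℝ)) R := by
      ext z
      simp [abs_le]
    rw [this]
    exact convex_univ.prod (convex_Icc _ _)
  refine ⟨1 / (K + 1), by positivity, fun x x' => ?_⟩
  have h2 := Convex.norm_image_sub_le_of_norm_fderiv_le (𝕜 := ℝ) (f := T) (C := K)
    (fun z _ => hTs.differentiable (by simp) z) (fun z hz => hK' z.1 z.2 hz) hconv
    (show ((ι x').1, pair (ι x').2 v) ∈ {z : V m × ℝ | |z.2| ≤ R} from hR x')
    (show ((ι x).1, pair (ι x).2 v) ∈ {z : V m × ℝ | |z.2| ≤ R} from hR x)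
  have h3 : ∀ x, T ((ι x).1, pair (ι x).2 v) = x := fun x => hτ1 0 x
  rw [h3, h3] at h2
  have h4 : ‖x - x'‖ ≤ (K + 1) *
      ‖((ι x).1, pair (ι x).2 v) - ((ι x').1, pair (ι x').2 v)‖ := by
    refine h2.trans (mul_le_mul_of_nonneg_right (by linarith) (norm_nonneg _))
  rw [div_mul_eq_mul_div, one_mul, div_le_iff₀ (by linarith)]
  linarith

theorem injective_of_lower {E F : Type*} [NormedAddCommGroup E] [NormedSpace ℝ E]
    [NormedAddCommGroup F] [NormedSpace ℝ F] {f : E → F} (hf : Differentiable ℝ f) {c : ℝ}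
    (hc : 0 < c) (h : ∀ x x', c * ‖x - x'‖ ≤ ‖f x - f x'‖) :
    Function.Injective f ∧ ∀ x, Function.Injective (fderiv ℝ f x) := by
  refine ⟨fun x x' hx => ?_, fun x => ?_⟩
  · have h1 := h x x'
    rw [hx, sub_self, norm_zero] at h1
    have h2 : ‖x - x'‖ ≤ 0 := by
      by_contra hcon
      have := mul_pos hc (not_le.1 hcon)
      linarith
    exact sub_eq_zero.1 (norm_le_zero_iff.1 h2)
  · rw [injective_iff_map_eq_zero]
    intro u hu
    have h1 : HasDerivAt (fun t : ℝ => x + t • u) u 0 := by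
      simpa using ((hasDerivAt_id (0 : ℝ)).smul_const u).const_add x
    have h2 : HasDerivAt (fun t : ℝ => f (x + t • u)) (fderiv ℝ f x u) 0 := by
      have h3 : HasFDerivAt f (fderiv ℝ f x) (x + (0 : ℝ) • u) := by
        rw [zero_smul, add_zero]
        exact (hf x).hasFDerivAt
      exact h3.comp_hasDerivAt 0 h1
    rw [hu] at h2
    have h4 := (hasDerivAt_iff_tendsto_slope.1 h2).norm
    rw [norm_zero] at h4
    have h5 : c * ‖u‖ ≤ 0 := by
      refine ge_of_tendsto h4 ?_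
      filter_upwards [self_mem_nhdsWithin] with t ht
      have ht' : t ≠ 0 := ht
      rw [slope_def_module, sub_zero, norm_smul, norm_inv, zero_smul, add_zero]
      have h6 := h (x + t • u) x
      rw [add_sub_cancel_left, norm_smul] at h6
      rw [inv_mul_eq_div, le_div_iff₀ (norm_pos_iff.2 ht')]
      linarith [mul_comm ‖t‖ ‖u‖, mul_assoc c ‖u‖ ‖t‖, mul_assoc c ‖t‖ ‖u‖]
    have h6 : ‖u‖ ≤ 0 := by
      by_contra hcon
      have := mul_pos hc (not_le.1 hcon)
      linarith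
    exact norm_le_zero_iff.1 h6

/-- openness -/
theorem IsMomEmb.open {ι : V m → Ph m} (h : IsExactLagTorus ι) {v : V m} (hv : IsMomEmb ι v) :
    ∃ ε : ℝ, 0 < ε ∧ ∀ w, ‖w - v‖ < ε → IsMomEmb ι w := by
  obtain ⟨c, hc, hlow⟩ := hv.lower h
  have hs := h.smooth
  -- Lipschitz bound for the momenta
  obtain ⟨C, hC⟩ : ∃ C : ℝ, 0 ≤ C ∧ ∀ x x', ‖(ι x).2 - (ι x').2‖ ≤ C * ‖x - x'‖ := by
    have h1 : ContDiff ℝ ∞ fun x => (ι x).2 := contDiff_snd.comp hs
    obtain ⟨C, hC⟩ := bdd_of_per1 (h1.continuous_fderiv (by simp))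
      (fun x k l => fderiv_per1 (c := 0) (fun x => by
        rw [h.equivariant, Prod.snd_add]) x)
    refine ⟨C, C.2, fun x x' => ?_⟩
    exact Convex.norm_image_sub_le_of_norm_fderiv_le (𝕜 := ℝ) (f := fun x => (ι x).2)
      (fun z _ => h1.differentiable (by simp) z) (fun z _ => hC z) convex_univ (mem_univ x')
      (mem_univ x)
  set D := ‖pairL m‖ * C + 1 with hD
  have hD0 : 0 < D := by have := mul_nonneg (norm_nonneg (pairL m)) hC.1; linarith
  refine ⟨c / (2 * D), by positivity, fun w hw => ?_⟩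
  have hps : ContDiff ℝ ∞ fun x => pair (ι x).2 w :=
    contDiff_pair (contDiff_snd.comp hs) contDiff_const
  have hlow' : ∀ x x', (c / 2) * ‖x - x'‖ ≤
      ‖((ι x).1, pair (ι x).2 w) - ((ι x').1, pair (ι x').2 w)‖ := by
    intro x x'
    have h1 := hlow x x'
    have h2 : ((ι x).1, pair (ι x).2 v) - ((ι x').1, pair (ι x').2 v) =
        (((ι x).1, pair (ι x).2 w) - ((ι x').1, pair (ι x').2 w)) -
          ((0, pair ((ι x).2 - (ι x').2) (w - v)) : V m × ℝ) := by
      refine Prod.ext ?_ ?_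
      · simp
      · simp only [Prod.snd_sub, pair_sub_left, pair_sub_right]
        ring
    have h3 : ‖((0, pair ((ι x).2 - (ι x').2) (w - v)) : V m × ℝ)‖ ≤ (c / 2) * ‖x - x'‖ := by
      rw [Prod.norm_def, norm_zero, max_eq_right (norm_nonneg _), ← pairL_apply]
      refine ((pairL m).le_opNorm₂ _ _).trans ?_
      have h4 := hC.2 x x'
      have h5 : ‖pairL m‖ * ‖(ι x).2 - (ι x').2‖ ≤ D * ‖x - x'‖ := by
        calc ‖pairL m‖ * ‖(ι x).2 - (ι x').2‖ ≤ ‖pairL m‖ * (C * ‖x - x'‖) :=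
              mul_le_mul_of_nonneg_left h4 (norm_nonneg (pairL m))
          _ = (‖pairL m‖ * C) * ‖x - x'‖ := by ring
          _ ≤ D * ‖x - x'‖ := mul_le_mul_of_nonneg_right (by linarith) (norm_nonneg _)
      calc ‖pairL m‖ * ‖(ι x).2 - (ι x').2‖ * ‖w - v‖ ≤ (D * ‖x - x'‖) * (c / (2 * D)) :=
            mul_le_mul h5 hw.le (norm_nonneg _) (by positivity)
        _ = (c / 2) * ‖x - x'‖ := by field_simp
    rw [h2] at h1
    have h4 := norm_sub_le (((ι x).1, pair (ι x).2 w) - ((ι x').1, pair (ι x').2 w))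
      ((0, pair ((ι x).2 - (ι x').2) (w - v)) : V m × ℝ)
    have h5 : c * ‖x - x'‖ = (c / 2) * ‖x - x'‖ + (c / 2) * ‖x - x'‖ := by ring
    linarith
  have hdiff : Differentiable ℝ fun x => ((ι x).1, pair (ι x).2 w) :=
    ((contDiff_fst.comp hs).prodMk hps).differentiable (by simp)
  obtain ⟨h6, h7⟩ := injective_of_lower hdiff (half_pos hc) hlow'
  exact ⟨h6, h7⟩

end Vale.Agent.P220.H64
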