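import Vale.Agent.P220.H64.Fields
import Vale.Agent.P220.H64.ParInt

/-!
# A periodic submersion `T^m × S^1 → T^m` homotopic to the projection is a trivial bundle
-/

open Set Filter Topology
open scoped ContDiff

namespace Vale.Agent.P220.H64

variable {m : ℕ}

/-- flows move `π` with constant speed -/
theorem flow_pi {π : V m → Fin m → ℝ} (hπ : Differentiable ℝ π) {Y : V m → V m} {φ : ℝ × V m → V m}
    (hφ : IsGFlow Y φ) {c : Fin m → ℝ} (hc : ∀ x, fderiv ℝ π x (Y x) = c) (t : ℝ) (x : V m) :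
    π (φ (t, x)) = π x + t • c := by
  have h1 : ∀ s, HasDerivAt (fun s => π (φ (s, x)) - s • c) 0 s := by
    intro s
    have h2 := ((hπ (φ (s, x))).hasFDerivAt).comp_hasDerivAt s (hφ.deriv s x)
    have h3 := h2.sub ((hasDerivAt_id s).smul_const c)
    rw [hc, one_smul, sub_self] at h3
    exact h3
  have h4 := is_const_of_deriv_eq_zero (fun s => (h1 s).differentiableAt) (fun s => (h1 s).deriv)
    t 0
  simp only [hφ.zero, zero_smul, sub_zero] at h4
  rw [← h4]
  abel

/-- transport along the horizontal fields in a list of directions -/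
noncomputable def transp (Φ : Fin m → ℝ × V m → V m) : List (Fin m) → (Fin m → ℝ) → V m → V m
  | [], _, x => x
  | j :: l, c, x => Φ j (c j, transp Φ l c x)

theorem transp_cont {Φ : Fin m → ℝ × V m → V m} (hΦ : ∀ j, Continuous (Φ j)) (l : List (Fin m)) :
    Continuous fun p : (Fin m → ℝ) × V m => transp Φ l p.1 p.2 := by
  induction l with
  | nil => exact continuous_snd
  | cons j l ih =>
    exact (hΦ j).comp (((continuous_apply j).comp continuous_fst).prodMk ih)

theorem transp_zero {Φ : Fin m → ℝ × V m → V m} (hΦ : ∀ j x, Φ j (0, x) = x) (l : List (Fin m))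
    (x : V m) : transp Φ l 0 x = x := by
  induction l with
  | nil => rfl
  | cons j l ih =>
    show Φ j (0, transp Φ l 0 x) = x
    rw [hΦ, ih]

theorem transp_pi {π : V m → Fin m → ℝ} {Φ : Fin m → ℝ × V m → V m}
    (hΦ : ∀ j t x, π (Φ j (t, x)) = π x + t • Pi.single j 1) (l : List (Fin m))
    (c : Fin m → ℝ) (x : V m) :
    π (transp Φ l c x) = π x + (l.map fun j => c j • (Pi.single j 1 : Fin m → ℝ)).sum := by
  induction l with
  | nil => simp [transp]
  | cons j l ih =>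
    show π (Φ j (c j, transp Φ l c x)) = _
    rw [hΦ, ih, List.map_cons, List.sum_cons]
    abel

theorem sum_finRange (c : Fin m → ℝ) :
    ((List.finRange m).map fun j => c j • (Pi.single j 1 : Fin m → ℝ)).sum = c := by
  rw [← Fin.sum_univ_def]
  funext i
  simp [Finset.sum_apply, Pi.single_apply]

/-- all the data of a periodic submersion -/
structure SubData (π : V m → Fin m → ℝ) (Z : V m → V m) (φ : ℝ × V m → V m) : Prop where
  sub : IsSub π
  zsm : ContDiff ℝ ∞ Z
  zper : ∀ x k l, Z (x + lat k l) = Z x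
  zker : ∀ x, fderiv ℝ π x (Z x) = 0
  zspan : ∀ x u, fderiv ℝ π x u = 0 → ∃ c : ℝ, u = c • Z x
  zne : ∀ x, Z x ≠ 0
  flow : IsGFlow Z φ

theorem SubData.pi_flow {π : V m → Fin m → ℝ} {Z : V m → V m} {φ : ℝ × V m → V m}
    (h : SubData π Z φ) (t : ℝ) (x : V m) : π (φ (t, x)) = π x := by
  rw [flow_pi (h.sub.smooth.differentiable (by simp)) h.flow (c := 0) h.zker, smul_zero, add_zero]

/-- the fibres are connected and nonempty -/
theorem IsSub.fibre {π : V m → Fin m → ℝ} (h : IsSub π) (b : Fin m → ℝ) :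
    IsPreconnected (π ⁻¹' {b}) ∧ (π ⁻¹' {b}).Nonempty := by
  have hfl : ∀ j, ∃ φ, IsGFlow (XX π j) φ := fun j => exists_gflow (h.XX_smooth j) (h.XX_per j)
  choose Φ hΦ using hfl
  have h1 : ∀ j t x, π (Φ j (t, x)) = π x + t • Pi.single j 1 := fun j t x =>
    flow_pi (h.smooth.differentiable (by simp)) (hΦ j) (h.XX_spec j) t x
  set ρ : V m → V m := fun x => transp Φ (List.finRange m) (b - π x) x with hρ
  have hρc : Continuous ρ :=
    (transp_cont (fun j => (hΦ j).smooth.continuous) (List.finRange m)).comp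
      ((continuous_const.sub h.smooth.continuous).prodMk continuous_id)
  have hρb : ∀ x, π (ρ x) = b := by
    intro x
    rw [hρ]
    simp only
    rw [transp_pi h1, sum_finRange]
    abel
  have hρr : ∀ x, π x = b → ρ x = x := by
    intro x hx
    rw [hρ]
    simp only
    rw [hx, sub_self, transp_zero fun j x => (hΦ j).zero x]
  have he : π ⁻¹' {b} = ρ '' univ := by
    ext x
    constructor
    · intro hx
      exact ⟨x, mem_univ _, hρr x hx⟩
    · rintro ⟨y, -, rfl⟩
      exact hρb y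
  rw [he]
  exact ⟨isPreconnected_univ.image _ hρc.continuousOn, ⟨ρ 0, mem_image_of_mem _ (mem_univ _)⟩⟩

/-- flow boxes -/
theorem SubData.box {π : V m → Fin m → ℝ} {Z : V m → V m} {φ : ℝ × V m → V m}
    (h : SubData π Z φ) (y₀ : V m) {ε : ℝ} (hε : 0 < ε) : ∃ U, IsOpen U ∧ y₀ ∈ U ∧
      ∀ y ∈ U, ∀ y' ∈ U, π y = π y' → ∃ δ, |δ| < ε ∧ y' = φ (δ, y) := by
  -- a linear section
  obtain ⟨g, hg⟩ := LinearMap.exists_rightInverse_of_surjective
    (fderiv ℝ π y₀ : V m →ₗ[ℝ] (Fin m → ℝ)) (LinearMap.range_eq_top.2 (h.sub.surj y₀))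
  set S : (Fin m → ℝ) →L[ℝ] V m := LinearMap.toContinuousLinearMap g with hS
  have hSg : ∀ b, fderiv ℝ π y₀ (S b) = b := fun b => LinearMap.congr_fun hg b
  set A : V m → V m := fun p => φ (p.2, y₀ + S p.1) with hA
  have hAs : ContDiff ℝ ∞ A := h.flow.smooth.comp
    (contDiff_snd.prodMk (contDiff_const.add (S.contDiff.comp contDiff_fst)))
  have hA0 : A 0 = y₀ := by
    show φ (0, y₀ + S 0) = y₀
    rw [h.flow.zero, map_zero, add_zero]
  have hAd : ∀ u, fderiv ℝ A 0 u = S u.1 + u.2 • Z y₀ := by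
    intro u
    have h1 : ∀ b, fderiv ℝ A 0 (b, 0) = S b := by
      intro b
      have e1 : HasDerivAt (fun s : ℝ => A (s • ((b, 0) : V m))) (fderiv ℝ A 0 (b, 0)) 0 := by
        have e2 : HasDerivAt (fun s : ℝ => s • ((b, 0) : V m)) (b, 0) 0 := by
          simpa using (hasDerivAt_id (0 : ℝ)).smul_const ((b, 0) : V m)
        have e3 : HasFDerivAt A (fderiv ℝ A 0) ((0 : ℝ) • ((b, 0) : V m)) := by
          rw [zero_smul]
          exact (hAs.differentiable (by simp) 0).hasFDerivAt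
        exact e3.comp_hasDerivAt 0 e2
      have e4 : (fun s : ℝ => A (s • ((b, 0) : V m))) = fun s => y₀ + s • S b := by
        funext s
        show φ (s • (0 : ℝ), y₀ + S (s • b)) = _
        rw [smul_zero, h.flow.zero, map_smul]
      rw [e4] at e1
      have e5 : HasDerivAt (fun s : ℝ => y₀ + s • S b) (S b) 0 := by
        simpa using ((hasDerivAt_id (0 : ℝ)).smul_const (S b)).const_add y₀
      exact e1.unique e5
    have h2 : ∀ r : ℝ, fderiv ℝ A 0 (0, r) = r • Z y₀ := by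
      intro r
      have e1 : HasDerivAt (fun s : ℝ => A (s • ((0, 1) : V m))) (fderiv ℝ A 0 (0, 1)) 0 := by
        have e2 : HasDerivAt (fun s : ℝ => s • ((0, 1) : V m)) (0, 1) 0 := by
          simpa using (hasDerivAt_id (0 : ℝ)).smul_const ((0, 1) : V m)
        have e3 : HasFDerivAt A (fderiv ℝ A 0) ((0 : ℝ) • ((0, 1) : V m)) := by
          rw [zero_smul]
          exact (hAs.differentiable (by simp) 0).hasFDerivAt
        exact e3.comp_hasDerivAt 0 e2
      have e4 : (fun s : ℝ => A (s • ((0, 1) : V m))) = fun s => φ (s, y₀) := by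
        funext s
        show φ (s • (1 : ℝ), y₀ + S (s • (0 : Fin m → ℝ))) = _
        rw [smul_zero, map_zero, add_zero, smul_eq_mul, mul_one]
      rw [e4] at e1
      have e5 := h.flow.deriv 0 y₀
      rw [h.flow.zero] at e5
      have e6 := e1.unique e5
      have e7 : ((0, r) : V m) = r • ((0, 1) : V m) := Prod.ext (by simp) (by simp)
      rw [e7, map_smul, e6]
    have h3 : u = (u.1, 0) + (0, u.2) := Prod.ext (by simp) (by simp)
    conv_lhs => rw [h3]
    rw [map_add, h1, h2]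
  have hinj : Function.Injective (fderiv ℝ A 0) := by
    rw [injective_iff_map_eq_zero]
    intro u hu
    rw [hAd] at hu
    have h1 := congrArg (fderiv ℝ π y₀) hu
    rw [map_add, hSg, map_smul, h.zker, smul_zero, add_zero, map_zero] at h1
    rw [h1, map_zero, zero_add, smul_eq_zero] at hu
    exact Prod.ext h1 (hu.resolve_right (h.zne y₀))
  obtain ⟨-, -, T, -, -, hT2, hT3⟩ := exists_loc_inv' hAs hinj
  rw [hA0] at hT2 hT3
  -- injectivity of the base coordinate
  set gb : (Fin m → ℝ) → Fin m → ℝ := fun b => π (y₀ + S b) with hgb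
  have hgs : ContDiff ℝ ∞ gb := h.sub.smooth.comp (contDiff_const.add S.contDiff)
  have hgd : fderiv ℝ gb 0 = ContinuousLinearMap.id ℝ _ := by
    have e1 : HasFDerivAt (fun b => y₀ + S b) S 0 := S.hasFDerivAt.const_add y₀
    have e2 : HasFDerivAt π (fderiv ℝ π y₀) (y₀ + S 0) := by
      rw [map_zero, add_zero]
      exact (h.sub.smooth.differentiable (by simp) y₀).hasFDerivAt
    have e3 : fderiv ℝ gb 0 = (fderiv ℝ π y₀).comp S := (e2.comp 0 e1).fderiv
    rw [e3]
    ext b : 1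
    exact hSg b
  obtain ⟨-, -, T', -, hT'1, -, -⟩ := exists_loc_inv' hgs (x₀ := 0) (by
    rw [hgd]; exact fun a b hab => hab)
  have hn1 : ∀ᶠ y in 𝓝 y₀, T' (gb (T y).1) = (T y).1 := by
    have : Tendsto (fun y => (T y).1) (𝓝 y₀) (𝓝 0) :=
      (continuous_fst.tendsto (0 : V m)).comp hT3
    exact this.eventually hT'1
  have hn2 : ∀ᶠ y in 𝓝 y₀, |(T y).2| < ε / 2 := by
    have : Tendsto (fun y => |(T y).2|) (𝓝 y₀) (𝓝 |(0 : V m).2|) :=
      ((continuous_abs.comp continuous_snd).tendsto (0 : V m)).comp hT3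
    refine this.eventually_lt_const ?_
    rw [Prod.snd_zero, abs_zero]
    exact half_pos hε
  obtain ⟨U, hU, hUo, hyU⟩ := mem_nhds_iff.1 (hT2.and (hn1.and hn2))
  refine ⟨U, hUo, hyU, fun y hy y' hy' hpi => ?_⟩
  obtain ⟨a1, a2, a3⟩ := hU hy
  obtain ⟨b1, b2, b3⟩ := hU hy'
  have hb : ∀ z, A (T z) = z → gb (T z).1 = π z := by
    intro z hz
    have : π (A (T z)) = gb (T z).1 := h.pi_flow _ _
    rw [← this, hz]
  have hbb : (T y).1 = (T y').1 := by
    rw [← a2, ← b2, hb y a1, hb y' b1, hpi]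
  refine ⟨(T y').2 - (T y).2, ?_, ?_⟩
  · have := abs_sub (T y').2 (T y).2
    linarith
  · have e1 : y = φ ((T y).2, y₀ + S (T y).1) := a1.symm
    have e2 : y' = φ ((T y').2, y₀ + S (T y').1) := b1.symm
    rw [← hbb] at e2
    have e3 := h.flow.add ((T y').2 - (T y).2) (T y).2 (y₀ + S (T y).1)
    rw [sub_add_cancel, ← e1, ← e2] at e3
    exact e3

/-- the fibres are orbits -/
theorem SubData.orbit {π : V m → Fin m → ℝ} {Z : V m → V m} {φ : ℝ × V m → V m}
    (h : SubData π Z φ) {x y : V m} (hxy : π y = π x) : ∃ t, y = φ (t, x) := by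
  have hU := fun y₀ => h.box y₀ one_pos
  choose U hUo hUm hUp using hU
  set F : Set (V m) := π ⁻¹' {π x} with hF
  set O : Set (V m) := {z | ∃ t, z = φ (t, x)} with hO
  have hOF : O ⊆ F := by
    rintro z ⟨t, rfl⟩
    exact h.pi_flow t x
  set u : Set (V m) := ⋃ z ∈ O, U z with hu
  set v : Set (V m) := ⋃ z ∈ F \ O, U z with hv
  have huo : IsOpen u := isOpen_biUnion fun z _ => hUo z
  have hvo : IsOpen v := isOpen_biUnion fun z _ => hUo z
  have h1 : ∀ z ∈ F, z ∈ u → z ∈ O := by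
    intro z hz hzu
    obtain ⟨w, hw, hzw⟩ := mem_iUnion₂.1 hzu
    obtain ⟨δ, -, hδ⟩ := hUp w w (hUm w) z hzw ((hOF hw).trans hz.symm)
    obtain ⟨t, ht⟩ := hw
    exact ⟨δ + t, by rw [h.flow.add, ← ht]; exact hδ⟩
  have h2 : ∀ z ∈ F, z ∈ v → z ∉ O := by
    intro z hz hzv hzO
    obtain ⟨w, hw, hzw⟩ := mem_iUnion₂.1 hzv
    obtain ⟨δ, -, hδ⟩ := hUp w z hzw w (hUm w) (hz.trans hw.1.symm)
    obtain ⟨t, ht⟩ := hzO
    exact hw.2 ⟨δ + t, by rw [h.flow.add, ← ht]; exact hδ⟩
  have hcov : F ⊆ u ∪ v := by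
    intro z hz
    by_cases hzO : z ∈ O
    · exact Or.inl (mem_iUnion₂.2 ⟨z, hzO, hUm z⟩)
    · exact Or.inr (mem_iUnion₂.2 ⟨z, ⟨hz, hzO⟩, hUm z⟩)
  have hdis : F ∩ (u ∩ v) = ∅ := by
    rw [eq_empty_iff_forall_notMem]
    rintro z ⟨hz, hzu, hzv⟩
    exact h2 z hz hzv (h1 z hz hzu)
  rcases isPreconnected_iff_subset_of_disjoint.1 (h.sub.fibre (π x)).1 u v huo hvo hcov hdis
    with h3 | h3
  · exact h1 y hxy (h3 hxy)
  · have hx : x ∈ O := ⟨0, (h.flow.zero x).symm⟩
    exact absurd hx (h2 x rfl (h3 rfl))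

theorem SubData.disp {π : V m → Fin m → ℝ} {Z : V m → V m} {φ : ℝ × V m → V m}
    (h : SubData π Z φ) : ∃ C : ℝ, 0 ≤ C ∧ ∀ t x, |(φ (t, x)).2 - x.2| ≤ C * |t| := by
  obtain ⟨C, hC⟩ := bdd_of_per1 h.zsm.continuous h.zper
  refine ⟨C, C.2, fun t x => ?_⟩
  have h1 : ∀ s, HasDerivAt (fun s => (φ (s, x)).2) (Z (φ (s, x))).2 s := fun s =>
    ((ContinuousLinearMap.snd ℝ (Fin m → ℝ) ℝ).hasFDerivAt).comp_hasDerivAt s (h.flow.deriv s x)
  have h2 := Convex.norm_image_sub_le_of_norm_hasDerivWithin_le (s := univ)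
    (f := fun s => (φ (s, x)).2) (f' := fun s => (Z (φ (s, x))).2) (C := C)
    (fun s _ => (h1 s).hasDerivWithinAt) (fun s _ => (norm_snd_le _).trans (hC _)) convex_univ
    (mem_univ 0) (mem_univ t)
  simp only [h.flow.zero, sub_zero, Real.norm_eq_abs] at h2
  exact h2

theorem lat_fst_zero (l : ℤ) : (lat 0 l : V m).1 = 0 := by
  funext j
  simp [lat]

theorem lat_nat (n : ℕ) : (lat 0 (n : ℤ) : V m) = (0, (n : ℝ)) := by
  refine Prod.ext (funext fun j => ?_) ?_
  · simp [lat]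
  · simp [lat]

theorem lat_iter (x : V m) (n : ℕ) : x + lat 0 ((n + 1 : ℕ) : ℤ) = (x + lat 0 (n : ℤ)) + lat 0 1 := by
  rw [add_assoc]
  congr 1
  refine Prod.ext (funext fun j => ?_) ?_
  · simp [lat]
  · simp [lat]

/-- no orbit is closed -/
theorem SubData.not_closed {π : V m → Fin m → ℝ} {Z : V m → V m} {φ : ℝ × V m → V m}
    (h : SubData π Z φ) {x : V m} {P : ℝ} (hP : P ≠ 0) (hx : φ (P, x) = x) : False := by
  obtain ⟨C, hC0, hC⟩ := h.disp
  have hper : ∀ n : ℤ, φ (n * P, x) = x := by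
    intro n
    induction n using Int.induction_on with
    | zero => simp [h.flow.zero]
    | succ n ih =>
      have := h.flow.add P (n * P) x
      push_cast
      rw [show ((n : ℝ) + 1) * P = P + n * P by ring, this]
      push_cast at ih
      rw [ih, hx]
    | pred n ih =>
      have h1 := h.flow.add (-P) P x
      rw [neg_add_cancel, h.flow.zero, hx] at h1
      have := h.flow.add (-P) (-n * P) x
      push_cast
      rw [show (-(n : ℝ) - 1) * P = -P + -n * P by ring, this]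
      push_cast at ih
      rw [ih, ← h1]
  have hbd : ∀ t, |(φ (t, x)).2 - x.2| ≤ C * |P| := by
    intro t
    have h1 : φ (t, x) = φ (t - ⌊t / P⌋ * P, x) := by
      have := h.flow.add (t - ⌊t / P⌋ * P) (⌊t / P⌋ * P) x
      rw [sub_add_cancel, hper] at this
      exact this
    rw [h1]
    refine (hC _ _).trans (mul_le_mul_of_nonneg_left ?_ hC0)
    have h2 : t - ⌊t / P⌋ * P = Int.fract (t / P) * P := by
      have := Int.fract_add_floor (t / P)
      have h3 : t = t / P * P := by field_simp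
      rw [← Int.self_sub_floor]
      rw [sub_mul, ← h3]
    rw [h2, abs_mul, abs_of_nonneg (Int.fract_nonneg _)]
    exact mul_le_of_le_one_left (abs_nonneg _) (Int.fract_lt_one _).le
  obtain ⟨n, hn⟩ := exists_nat_gt (C * |P|)
  obtain ⟨t, ht⟩ := h.orbit (x := x) (y := x + lat 0 (n : ℤ)) (by
    rw [h.sub.equiv]
    simp [lat_nat])
  have h3 := hbd t
  rw [← ht, lat_nat] at h3
  simp only [Prod.snd_add, add_sub_cancel_left] at h3
  rw [abs_of_nonneg (Nat.cast_nonneg n)] at h3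
  linarith

theorem SubData.inj {π : V m → Fin m → ℝ} {Z : V m → V m} {φ : ℝ × V m → V m}
    (h : SubData π Z φ) {x : V m} {s t : ℝ} (hx : φ (s, x) = φ (t, x)) : s = t := by
  by_contra hne
  have h1 : φ (s - t, φ (t, x)) = φ (t, x) := by
    rw [← h.flow.add, sub_add_cancel]
    exact hx
  exact h.not_closed (sub_ne_zero.2 hne) h1

/-- the time to go once around -/
theorem SubData.exists_time {π : V m → Fin m → ℝ} {Z : V m → V m} {φ : ℝ × V m → V m}
    (h : SubData π Z φ) : ∃ T : V m → ℝ, (∀ x, φ (T x, x) = x + lat 0 1) ∧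
      (∀ x, T x ≠ 0) ∧ (∀ x k l, T (x + lat k l) = T x) ∧
      ∀ x, ∀ ε > 0, ∀ᶠ y in 𝓝 x, |T y - T x| < ε := by
  have h1 : ∀ x, ∃ t, φ (t, x) = x + lat 0 1 := by
    intro x
    obtain ⟨t, ht⟩ := h.orbit (x := x) (y := x + lat 0 1) (by
      rw [h.sub.equiv, lat_fst_zero, add_zero])
    exact ⟨t, ht.symm⟩
  choose T hT using h1
  refine ⟨T, hT, fun x h0 => ?_, fun x k l => ?_, fun x ε hε => ?_⟩
  · have := hT x
    rw [h0, h.flow.zero] at this
    have h2 : (x + lat 0 1).2 = x.2 := by rw [← this]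
    simp [lat] at h2
  · refine h.inj (x := x + lat k l) ?_
    rw [hT, h.flow.per, hT]
    abel
  · obtain ⟨U, hUo, hUm, hU⟩ := h.box (x + lat 0 1) hε
    have e1 : ∀ᶠ y in 𝓝 x, y + lat 0 1 ∈ U :=
      (continuous_id.add continuous_const).continuousAt.eventually (hUo.mem_nhds hUm)
    have e2 : ∀ᶠ y in 𝓝 x, φ (T x, y) ∈ U := by
      refine ((h.flow.smooth.continuous.comp (continuous_const.prodMk
        continuous_id)).continuousAt (x := x)).eventually (hUo.mem_nhds ?_)
      show φ (T x, x) ∈ U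
      rw [hT]
      exact hUm
    filter_upwards [e1, e2] with y hy1 hy2
    obtain ⟨δ, hδ, hδ'⟩ := hU _ hy2 _ hy1 (by
      rw [h.pi_flow, h.sub.equiv, lat_fst_zero, add_zero])
    rw [← h.flow.add, ← hT y] at hδ'
    have := h.inj hδ'
    rw [this, add_sub_cancel_right]
    exact hδ

end Vale.Agent.P220.H64
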